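import Crest.Agent.R292.Defs

/-!
# R292: algebra and continuity in `F_2[[t]]`
-/

set_option autoImplicit false

namespace Crest.Agent.R292

/-! ## Algebra -/

theorem cv_add (x a b : Om) : cv x (add a b) = add (cv x a) (cv x b) := by
  have key : ∀ (n : ℕ) (x : Om), cv x (add a b) n = add (cv x a) (cv x b) n := by
    intro n
    induction n with
    | zero =>
      intro x
      simp only [cv, add]
      cases x 0 <;> cases a 0 <;> cases b 0 <;> rfl
    | succ n ih =>
      intro x
      simp only [cv, add]
      rw [ih (ls x)]
      simp only [add]
      cases x 0 <;> cases a (n + 1) <;> cases b (n + 1) <;> cases cv (ls x) a n <;>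
        cases cv (ls x) b n <;> rfl
  funext n
  exact key n x

theorem sh_add (a b : Om) : sh (add a b) = add (sh a) (sh b) := by
  funext n
  cases n with
  | zero => rfl
  | succ n => rfl

theorem shn_add (m : ℕ) (a b : Om) : shn m (add a b) = add (shn m a) (shn m b) := by
  funext n
  simp only [shn, add]
  split_ifs <;> rfl

theorem shn_zero (a : Om) : shn 0 a = a := by
  funext n
  simp [shn]

theorem shn_succ (m : ℕ) (a : Om) : shn (m + 1) a = sh (shn m a) := by
  funext n
  cases n with
  | zero => simp [shn, sh]
  | succ n =>
    simp only [shn, sh]
    by_cases h : n < m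
    · rw [if_pos h, if_pos (by omega)]
    · rw [if_neg h, if_neg (by omega)]
      congr 1
      omega

theorem sh_shn (m : ℕ) (a : Om) : sh (shn m a) = shn m (sh a) := by
  funext n
  cases n with
  | zero =>
    simp only [shn, sh]
    split_ifs
    · rfl
    · simp
  | succ n =>
    simp only [shn, sh]
    by_cases h : n < m
    · rw [if_pos h]
      by_cases h2 : n + 1 < m
      · rw [if_pos h2]
      · rw [if_neg h2]
        have : n + 1 - m = 0 := by omega
        rw [this]
    · rw [if_neg h, if_neg (by omega)]
      have : n + 1 - m = (n - m) + 1 := by omega
      rw [this]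

theorem cv_sh (x a : Om) : cv x (sh a) = sh (cv x a) := by
  have key : ∀ (n : ℕ) (x : Om), cv x (sh a) n = sh (cv x a) n := by
    intro n
    induction n with
    | zero =>
      intro x
      simp [cv, sh]
    | succ n ih =>
      intro x
      have h1 : cv x (sh a) (n + 1) = xor (x 0 && a n) (cv (ls x) (sh a) n) := rfl
      rw [h1, ih (ls x)]
      cases n with
      | zero =>
        simp [cv, sh]
      | succ n => rfl
  funext n
  exact key n x

theorem cv_shn (x : Om) (m : ℕ) (a : Om) : cv x (shn m a) = shn m (cv x a) := by
  induction m with
  | zero => rw [shn_zero, shn_zero]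
  | succ m ih => rw [shn_succ, cv_sh, ih, shn_succ]

theorem tn_add_shn (m : ℕ) (a : Om) : add (tn m a) (shn m (fun n => a (n + m))) = a := by
  funext n
  simp only [add, tn, shn]
  by_cases h : n < m
  · rw [if_pos h, if_pos h]
    simp
  · rw [if_neg h, if_neg h]
    have : n - m + m = n := by omega
    rw [this]
    simp

/-- multiplication by `γ ≡ 1 mod t^M` does not change the first `M` bits -/
theorem cv_low {M : ℕ} {γ : Om} (hγ : ∀ i < M, γ i = decide (i = 0)) (κ : Om) :
    ∀ i < M, cv κ γ i = κ i := by
  have key : ∀ (i : ℕ) (κ : Om), i < M → cv κ γ i = κ i := by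
    intro i
    induction i with
    | zero =>
      intro κ h
      simp [cv, hγ 0 h]
    | succ i ih =>
      intro κ h
      have h1 : cv κ γ (i + 1) = xor (κ 0 && γ (i + 1)) (cv (ls κ) γ i) := rfl
      rw [h1, ih (ls κ) (by omega), hγ (i + 1) h]
      simp [ls]
  intro i hi
  exact key i κ hi

theorem continuous_add : Continuous (fun p : Om × Om => add p.1 p.2) := by
  refine continuous_pi fun n => ?_
  have h1 : Continuous (fun p : Om × Om => (p.1 n, p.2 n)) :=
    ((continuous_apply n).comp continuous_fst).prodMk ((continuous_apply n).comp continuous_snd)
  have h2 : Continuous (fun q : Bool × Bool => xor q.1 q.2) := continuous_of_discreteTopology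
  exact h2.comp h1

theorem continuous_sh : Continuous sh := by
  refine continuous_pi fun n => ?_
  cases n with
  | zero => exact continuous_const
  | succ n => exact continuous_apply n

theorem continuous_ls : Continuous ls :=
  continuous_pi fun n => continuous_apply (n + 1)

theorem continuous_shn (m : ℕ) : Continuous (shn m) := by
  refine continuous_pi fun n => ?_
  by_cases h : n < m
  · simp only [shn, if_pos h]
    exact continuous_const
  · simp only [shn, if_neg h]
    exact continuous_apply (n - m)

theorem continuous_cv (x : Om) : Continuous (cv x) := by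
  have key : ∀ (n : ℕ) (x : Om), Continuous (fun a => cv x a n) := by
    intro n
    induction n with
    | zero =>
      intro x
      have h2 : Continuous (fun q : Bool => x 0 && q) := continuous_of_discreteTopology
      exact h2.comp (continuous_apply 0)
    | succ n ih =>
      intro x
      have h2 : Continuous (fun q : Bool × Bool => xor (x 0 && q.1) q.2) :=
        continuous_of_discreteTopology
      exact h2.comp ((continuous_apply (n + 1)).prodMk (ih (ls x)))
  exact continuous_pi fun n => key n x

theorem continuous_sc (x : Bool) : Continuous (sc x) := by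
  refine continuous_pi fun n => ?_
  have h2 : Continuous (fun q : Bool => x && q) := continuous_of_discreteTopology
  exact h2.comp (continuous_apply n)

end Crest.Agent.R292
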