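import Crest.Agent.R292.RE

/-!
# R292: uniform reductions of families, and the iteration lemma

Everything here is about `Red`, i.e. about r.e. sets of triples `(D, n, v)`.  Only `RE.lean`
is needed (`TR` is not mentioned).  Use `hit_code` with the appropriate r.e. predicate.
-/

set_option autoImplicit false

namespace Crest.Agent.R292

open Encodable
open Nat.Partrec (Code)

variable {I : Type*}

/-! ## primitive recursive helpers -/

theorem pr_mem {α : Type*} [Primcodable α] : PrimrecRel (fun (a : α) (L : List α) => a ∈ L) := by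
  have h : PrimrecRel (fun (L : List α) (b : α) => ∃ a ∈ L, a = b) :=
    PrimrecRel.exists_mem_list (Primrec.eq (α := α))
  exact (h.swap).of_eq (by intro a b; simp [Function.swap])

theorem pr_sub {α : Type*} [Primcodable α] :
    PrimrecRel (fun (L L' : List α) => ∀ a ∈ L, a ∈ L') :=
  PrimrecRel.forall_mem_list pr_mem

theorem re_of_prim {α : Type*} [Primcodable α] {p : α → Prop} (h : PrimrecPred p) : REPred p :=
  h.computablePred.to_re

/-- monotone closure of the r.e. set -/
def HM (c : Code) (D : Facts) (n : ℕ) (v : Bool) : Prop :=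
  ∃ D' : Facts, (∀ y ∈ D', y ∈ D) ∧ Hit c D' n v

theorem HM.mono {c : Code} {D E : Facts} {n : ℕ} {v : Bool} (h : HM c D n v)
    (hs : ∀ y ∈ D, y ∈ E) : HM c E n v := by
  obtain ⟨D', h1, h2⟩ := h
  exact ⟨D', fun y hy => hs y (h1 y hy), h2⟩

theorem Hit.hm {c : Code} {D : Facts} {n : ℕ} {v : Bool} (h : Hit c D n v) : HM c D n v :=
  ⟨D, fun _ hy => hy, h⟩

theorem re_HM : REPred (fun x : Code × Facts × ℕ × Bool => HM x.1 x.2.1 x.2.2.1 x.2.2.2) := by
  unfold HM
  refine re_ex (p := fun z : (Code × Facts × ℕ × Bool) × Facts =>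
    (∀ y ∈ z.2, y ∈ z.1.2.1) ∧ Hit z.1.1 z.2 z.1.2.2.1 z.1.2.2.2) ?_
  refine re_and ?_ ?_
  · refine re_of_prim ?_
    exact pr_sub.comp Primrec.snd (Primrec.fst.comp (Primrec.snd.comp Primrec.fst))
  · refine re_comp re_hit (f := fun z : (Code × Facts × ℕ × Bool) × Facts =>
      (z.1.1, z.2, z.1.2.2.1, z.1.2.2.2)) ?_
    refine Primrec.to_comp ?_
    have h1 : Primrec (fun z : (Code × Facts × ℕ × Bool) × Facts => z.1) := Primrec.fst
    have h2 : Primrec (fun z : (Code × Facts × ℕ × Bool) × Facts => z.1.2.2) :=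
      Primrec.snd.comp (Primrec.snd.comp h1)
    exact (Primrec.fst.comp h1).pair (Primrec.snd.pair ((Primrec.fst.comp h2).pair
      (Primrec.snd.comp h2)))

/-- `HM` with a fixed code, precomposed with a computable function -/
theorem re_HM_comp {α : Type*} [Primcodable α] (c : Code) {D : α → Facts} {n : α → ℕ}
    {v : α → Bool} (hD : Computable D) (hn : Computable n) (hv : Computable v) :
    REPred (fun x => HM c (D x) (n x) (v x)) :=
  re_comp re_HM (f := fun x => (c, D x, n x, v x))
    ((Computable.const c).pair (hD.pair (hn.pair hv)))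

theorem re_Hit_comp {α : Type*} [Primcodable α] (c : Code) {D : α → Facts} {n : α → ℕ}
    {v : α → Bool} (hD : Computable D) (hn : Computable n) (hv : Computable v) :
    REPred (fun x => Hit c (D x) (n x) (v x)) :=
  re_comp re_hit (f := fun x => (c, D x, n x, v x))
    ((Computable.const c).pair (hD.pair (hn.pair hv)))

theorem Red_iff_HM {c : Code} {b a : Om} :
    Red c b a ↔ ∀ n v, a n = v ↔ ∃ D, Tr b D ∧ HM c D n v := by
  have key : ∀ n v, (∃ D, Tr b D ∧ HM c D n v) ↔ ∃ D, Tr b D ∧ Hit c D n v := by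
    intro n v
    constructor
    · rintro ⟨D, hD, D', h1, h2⟩
      exact ⟨D', hD.mono h1, h2⟩
    · rintro ⟨D, hD, h⟩
      exact ⟨D, hD, h.hm⟩
  constructor
  · intro h n v
    rw [key]; exact h n v
  · intro h n v
    rw [← key]; exact h n v

/-- to build a functional -/
theorem UR_of_re {a b : I → Om} (p : Facts → ℕ → Bool → Prop)
    (hp : REPred (fun x : Facts × ℕ × Bool => p x.1 x.2.1 x.2.2))
    (h : ∀ i n v, b i n = v ↔ ∃ D, Tr (a i) D ∧ p D n v) : UR a b := by
  obtain ⟨c, hc⟩ := hit_code hp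
  refine ⟨c, fun i n v => ?_⟩
  rw [h]
  simp only [hc]

theorem Tr.singleton {b : Om} {n : ℕ} {v : Bool} (h : b n = v) : Tr b [(n, v)] := by
  intro f hf
  rw [List.mem_singleton] at hf
  subst hf; exact h

/-- collecting finitely many monotone conditions -/
theorem Tr_collect {b : Om} {β : Type*} (P : Facts → β → Prop)
    (hP : ∀ D E x, (∀ y ∈ D, y ∈ E) → P D x → P E x) (L : List β)
    (h : ∀ x ∈ L, ∃ D, Tr b D ∧ P D x) : ∃ D, Tr b D ∧ ∀ x ∈ L, P D x := by
  induction L with
  | nil => exact ⟨[], Tr.nil b, by simp⟩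
  | cons x L ih =>
    obtain ⟨D, hD, hDP⟩ := ih (fun y hy => h y (List.mem_cons_of_mem _ hy))
    obtain ⟨E, hE, hEP⟩ := h x List.mem_cons_self
    refine ⟨D ++ E, hD.append hE, ?_⟩
    intro y hy
    rcases List.mem_cons.1 hy with rfl | hy
    · exact hP _ _ _ (fun z hz => List.mem_append_right _ hz) hEP
    · exact hP _ _ _ (fun z hz => List.mem_append_left _ hz) (hDP y hy)

theorem UR.refl (a : I → Om) : UR a a := by
  refine UR_of_re (fun D n v => (n, v) ∈ D) (re_of_prim ?_) ?_
  · exact pr_mem.comp (Primrec.snd) Primrec.fst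
  · intro i n v
    constructor
    · intro h
      exact ⟨[(n, v)], Tr.singleton h, by simp⟩
    · rintro ⟨D, hD, h⟩
      exact hD _ h

/-- `a` computes `b`, `b` computes `d`. Take
`W'' D n v :↔ ∃ E, Hit c' E n v ∧ ∀ f ∈ E, ∃ D', (∀ x ∈ D', x ∈ D) ∧ Hit c D' f.1 f.2`. -/
theorem UR.comp {a b d : I → Om} (h : UR a b) (h' : UR b d) : UR a d := by
  obtain ⟨c, hc⟩ := h
  obtain ⟨c', hc'⟩ := h'
  refine UR_of_re (fun D n v => ∃ E : Facts, Hit c' E n v ∧ ∀ f ∈ E, HM c D f.1 f.2) ?_ ?_
  · refine re_ex (p := fun z : (Facts × ℕ × Bool) × Facts =>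
      Hit c' z.2 z.1.2.1 z.1.2.2 ∧ ∀ f ∈ z.2, HM c z.1.1 f.1 f.2) ?_
    refine re_and ?_ ?_
    · exact re_Hit_comp c' Computable.snd
        (Computable.fst.comp (Computable.snd.comp Computable.fst))
        (Computable.snd.comp (Computable.snd.comp Computable.fst))
    · refine re_all_mem (p := fun y : ((Facts × ℕ × Bool) × Facts) × (ℕ × Bool) =>
        HM c y.1.1.1 y.2.1 y.2.2) ?_ Computable.snd
      exact re_HM_comp c (Computable.fst.comp (Computable.fst.comp Computable.fst))
        (Computable.fst.comp Computable.snd) (Computable.snd.comp Computable.snd)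
  · intro i n v
    have h1 := hc' i n v
    have h2 := Red_iff_HM.1 (hc i)
    constructor
    · intro hv
      obtain ⟨E, hE, hEh⟩ := h1.1 hv
      obtain ⟨D, hD, hDP⟩ := Tr_collect (b := a i) (fun D (f : ℕ × Bool) => HM c D f.1 f.2)
        (fun D E x hs hx => hx.mono hs) E (fun f hf => (h2 f.1 f.2).1 (hE f hf))
      exact ⟨D, hD, E, hEh, hDP⟩
    · rintro ⟨D, hD, E, hEh, hDP⟩
      exact h1.2 ⟨E, fun f hf => (h2 f.1 f.2).2 ⟨D, hD, hDP f hf⟩, hEh⟩

theorem pr_even {α : Type*} [Primcodable α] {f : α → ℕ} (hf : Primrec f) (r : ℕ) :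
    PrimrecPred (fun x => f x % 2 = r) :=
  PrimrecRel.comp Primrec.eq (Primrec.nat_mod.comp hf (Primrec.const 2)) (Primrec.const r)

theorem pr_half {α : Type*} [Primcodable α] {f : α → ℕ} (hf : Primrec f) :
    Primrec (fun x => f x / 2) :=
  Primrec.nat_div.comp hf (Primrec.const 2)

theorem UR.join {a b b' : I → Om} (h : UR a b) (h' : UR a b') :
    UR a (fun i => join (b i) (b' i)) := by
  obtain ⟨c, hc⟩ := h
  obtain ⟨c', hc'⟩ := h'
  refine UR_of_re (fun D n v => (n % 2 = 0 ∧ Hit c D (n / 2) v) ∨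
    (n % 2 = 1 ∧ Hit c' D (n / 2) v)) ?_ ?_
  · have hn : Primrec (fun x : Facts × ℕ × Bool => x.2.1) := Primrec.fst.comp Primrec.snd
    refine re_or (re_and (re_of_prim (pr_even hn 0)) ?_) (re_and (re_of_prim (pr_even hn 1)) ?_)
    · exact re_Hit_comp c Computable.fst (pr_half hn).to_comp (Computable.snd.comp Computable.snd)
    · exact re_Hit_comp c' Computable.fst (pr_half hn).to_comp (Computable.snd.comp Computable.snd)
  · intro i n v
    rcases Nat.mod_two_eq_zero_or_one n with hn | hn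
    · have h1 := hc i (n / 2) v
      simp only [R292.join, hn, if_true, true_and, zero_ne_one, false_and, or_false]
      exact h1
    · have h1 := hc' i (n / 2) v
      simp only [R292.join, hn, one_ne_zero, if_false, true_and, false_and, false_or]
      exact h1

theorem UR.left (a b : I → Om) : UR (fun i => R292.join (a i) (b i)) a := by
  refine UR_of_re (fun D n v => (2 * n, v) ∈ D) (re_of_prim ?_) ?_
  · exact pr_mem.comp ((Primrec.nat_double.comp (Primrec.fst.comp Primrec.snd)).pair
      (Primrec.snd.comp Primrec.snd)) Primrec.fst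
  · intro i n v
    constructor
    · intro h
      exact ⟨[(2 * n, v)], Tr.singleton (by simpa using h), by simp⟩
    · rintro ⟨D, hD, h⟩
      have := hD _ h
      simpa using this

theorem UR.right (a b : I → Om) : UR (fun i => R292.join (a i) (b i)) b := by
  refine UR_of_re (fun D n v => (2 * n + 1, v) ∈ D) (re_of_prim ?_) ?_
  · exact pr_mem.comp ((Primrec.nat_double_succ.comp (Primrec.fst.comp Primrec.snd)).pair
      (Primrec.snd.comp Primrec.snd)) Primrec.fst
  · intro i n v
    constructor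
    · intro h
      exact ⟨[(2 * n + 1, v)], Tr.singleton (by simpa using h), by simp⟩
    · rintro ⟨D, hD, h⟩
      have := hD _ h
      simpa using this

theorem UR.cond {a b b' : I → Om} {x : I → Bool} (hx : UR a (fun i => cst (x i)))
    (h : UR a b) (h' : UR a b') : UR a (fun i => if x i then b i else b' i) := by
  obtain ⟨cx, hcx⟩ := hx
  obtain ⟨c, hc⟩ := h
  obtain ⟨c', hc'⟩ := h'
  refine UR_of_re (fun D n v => (HM cx D 0 true ∧ HM c D n v) ∨
    (HM cx D 0 false ∧ HM c' D n v)) ?_ ?_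
  · have hn : Computable (fun x : Facts × ℕ × Bool => x.2.1) :=
      Computable.fst.comp Computable.snd
    have hv : Computable (fun x : Facts × ℕ × Bool => x.2.2) :=
      Computable.snd.comp Computable.snd
    have hD : Computable (fun x : Facts × ℕ × Bool => x.1) := Computable.fst
    exact re_or
      (re_and (re_HM_comp cx hD (Computable.const 0) (Computable.const true))
        (re_HM_comp c hD hn hv))
      (re_and (re_HM_comp cx hD (Computable.const 0) (Computable.const false))
        (re_HM_comp c' hD hn hv))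
  · intro i n v
    have h0 := Red_iff_HM.1 (hcx i) 0
    have h1 := Red_iff_HM.1 (hc i) n v
    have h2 := Red_iff_HM.1 (hc' i) n v
    constructor
    · intro hv
      cases hxi : x i with
      | true =>
        rw [hxi] at hv
        simp only [if_true] at hv
        obtain ⟨D, hD, hDh⟩ := h1.1 hv
        obtain ⟨E, hE, hEh⟩ := (h0 true).1 (by simp [cst, hxi])
        exact ⟨D ++ E, hD.append hE, Or.inl
          ⟨hEh.mono (fun z hz => List.mem_append_right _ hz),
            hDh.mono (fun z hz => List.mem_append_left _ hz)⟩⟩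
      | false =>
        rw [hxi] at hv
        simp only [Bool.false_eq_true, if_false] at hv
        obtain ⟨D, hD, hDh⟩ := h2.1 hv
        obtain ⟨E, hE, hEh⟩ := (h0 false).1 (by simp [cst, hxi])
        exact ⟨D ++ E, hD.append hE, Or.inr
          ⟨hEh.mono (fun z hz => List.mem_append_right _ hz),
            hDh.mono (fun z hz => List.mem_append_left _ hz)⟩⟩
    · rintro ⟨D, hD, h | h⟩
      · have hxi : x i = true := (h0 true).2 ⟨D, hD, h.1⟩
        rw [hxi]
        simp only [if_true]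
        exact h1.2 ⟨D, hD, h.2⟩
      · have hxi : x i = false := (h0 false).2 ⟨D, hD, h.1⟩
        rw [hxi]
        simp only [Bool.false_eq_true, if_false]
        exact h2.2 ⟨D, hD, h.2⟩

theorem UR.bit (a : I → Om) (n : ℕ) : UR a (fun i => cst (a i n)) := by
  refine UR_of_re (fun D _ v => (n, v) ∈ D) (re_of_prim ?_) ?_
  · exact pr_mem.comp ((Primrec.const n).pair (Primrec.snd.comp Primrec.snd)) Primrec.fst
  · intro i m v
    constructor
    · intro h
      exact ⟨[(n, v)], Tr.singleton h, by simp⟩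
    · rintro ⟨D, hD, h⟩
      exact hD _ h

theorem UR.const (a : I → Om) (x : Bool) : UR a (fun _ => cst x) := by
  refine UR_of_re (fun _ _ v => v = x) (re_of_prim ?_) ?_
  · exact PrimrecRel.comp Primrec.eq (Primrec.snd.comp Primrec.snd) (Primrec.const x)
  · intro i m v
    constructor
    · intro h
      exact ⟨[], Tr.nil _, h.symm⟩
    · rintro ⟨D, hD, h⟩
      exact h.symm

theorem UR.of_Red {a b : I → Om} {c : Code} (h : ∀ i, Red c (a i) (b i)) : UR a b := ⟨c, h⟩

theorem UR.reindex {J : Type*} {a b : I → Om} (h : UR a b) (φ : J → I) :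
    UR (fun j => a (φ j)) (fun j => b (φ j)) :=
  let ⟨c, hc⟩ := h
  ⟨c, fun j => hc (φ j)⟩

/-- auxiliary: facts about `join O Z` reduced to facts `D` about `join O Z0` and a predicate
for the facts about `Z`. -/
def Lift (P : ℕ → Bool → Prop) (D E : Facts) : Prop :=
  ∀ f ∈ E, (f.1 % 2 = 0 ∧ f ∈ D) ∨ (f.1 % 2 = 1 ∧ P (f.1 / 2) f.2)

theorem Tr_join_iff {O Z Z0 : Om} {P : Facts → ℕ → Bool → Prop}
    (hmono : ∀ D E n v, (∀ y ∈ D, y ∈ E) → P D n v → P E n v)
    (hP : ∀ n v, Z n = v ↔ ∃ D, Tr (join O Z0) D ∧ P D n v) (E : Facts) :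
    Tr (join O Z) E ↔ ∃ D, Tr (join O Z0) D ∧ Lift (P D) D E := by
  constructor
  · intro h
    refine Tr_collect (b := join O Z0)
      (fun D (f : ℕ × Bool) => (f.1 % 2 = 0 ∧ f ∈ D) ∨ (f.1 % 2 = 1 ∧ P D (f.1 / 2) f.2)) ?_ E ?_
    · rintro D E x hs (h | h)
      · exact Or.inl ⟨h.1, hs _ h.2⟩
      · exact Or.inr ⟨h.1, hmono _ _ _ _ hs h.2⟩
    · intro f hf
      have hfv := h f hf
      rcases Nat.mod_two_eq_zero_or_one f.1 with hn | hn
      · refine ⟨[f], ?_, Or.inl ⟨hn, by simp⟩⟩
        intro g hg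
        rw [List.mem_singleton] at hg
        subst hg
        simpa [join, hn] using hfv
      · have : Z (f.1 / 2) = f.2 := by simpa [join, hn] using hfv
        obtain ⟨D, hD, hDP⟩ := (hP _ _).1 this
        exact ⟨D, hD, Or.inr ⟨hn, hDP⟩⟩
  · rintro ⟨D, hD, hL⟩ f hf
    rcases hL f hf with ⟨hn, h⟩ | ⟨hn, h⟩
    · have := hD f h
      simpa [join, hn] using this
    · have := (hP _ _).2 ⟨D, hD, h⟩
      simpa [join, hn] using this

/-- Iteration: if `Z (k+1)` is computed from `O ⊕ Z k` uniformly in `k` and the bit `X k` is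
computed from `O ⊕ Z k` uniformly in `k`, then `X` is computed from `O ⊕ Z 0`.

Proof: by `re_rec` there is an r.e. set `W` of `(D, k, i, w)` (`D : Facts` about `O ⊕ Z 0`) with
`W (D, 0, i, w) ↔ (2*i+1, w) ∈ D` and
`W (D, k+1, i, w) ↔ ∃ E, Hit c E i w ∧ ∀ f ∈ E, if f.1 is even then (f.1, f.2) ∈ D else
  W (D, k, f.1 / 2, f.2)`. By induction on `k`: `Z k i = w ↔ ∃ D, Tr (join O (Z 0)) D ∧ W (D,k,i,w)`.
Then compose with the functional for `X`. -/
theorem Red_iter {O : Om} {Z : ℕ → Om} {X : Om}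
    (hs : UR (fun k => R292.join O (Z k)) (fun k => Z (k + 1)))
    (hx : UR (fun k => R292.join O (Z k)) (fun k => cst (X k))) :
    ∃ c, Red c (R292.join O (Z 0)) X := by
  obtain ⟨c, hc⟩ := hs
  obtain ⟨cX, hcX⟩ := hx
  -- the recursion
  have hre : REPred (fun y : Code × (Facts × ℕ × ℕ × Bool) =>
      (y.2.2.1 = 0 ∧ (2 * y.2.2.2.1 + 1, y.2.2.2.2) ∈ y.2.1) ∨
      (y.2.2.1 ≠ 0 ∧ ∃ E : Facts, Hit c E y.2.2.2.1 y.2.2.2.2 ∧
        ∀ f ∈ E, (f.1 % 2 = 0 ∧ f ∈ y.2.1) ∨
          (f.1 % 2 = 1 ∧ (y.1.eval (encode (y.2.1, y.2.2.1 - 1, f.1 / 2, f.2))).Dom))) := by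
    have hk : Primrec (fun y : Code × (Facts × ℕ × ℕ × Bool) => y.2.2.1) :=
      Primrec.fst.comp (Primrec.snd.comp Primrec.snd)
    have hi : Primrec (fun y : Code × (Facts × ℕ × ℕ × Bool) => y.2.2.2.1) :=
      Primrec.fst.comp (Primrec.snd.comp (Primrec.snd.comp Primrec.snd))
    have hw : Primrec (fun y : Code × (Facts × ℕ × ℕ × Bool) => y.2.2.2.2) :=
      Primrec.snd.comp (Primrec.snd.comp (Primrec.snd.comp Primrec.snd))
    have hD : Primrec (fun y : Code × (Facts × ℕ × ℕ × Bool) => y.2.1) :=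
      Primrec.fst.comp Primrec.snd
    have hk0 : PrimrecPred (fun y : Code × (Facts × ℕ × ℕ × Bool) => y.2.2.1 = 0) :=
      PrimrecRel.comp Primrec.eq hk (Primrec.const 0)
    refine re_or (re_and (re_of_prim hk0) (re_of_prim ?_)) (re_and (re_of_prim hk0.not) ?_)
    · exact pr_mem.comp ((Primrec.nat_double_succ.comp hi).pair hw) hD
    · refine re_ex (p := fun z : (Code × (Facts × ℕ × ℕ × Bool)) × Facts =>
        Hit c z.2 z.1.2.2.2.1 z.1.2.2.2.2 ∧
        ∀ f ∈ z.2, (f.1 % 2 = 0 ∧ f ∈ z.1.2.1) ∨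
          (f.1 % 2 = 1 ∧ (z.1.1.eval (encode (z.1.2.1, z.1.2.2.1 - 1, f.1 / 2, f.2))).Dom)) ?_
      refine re_and ?_ ?_
      · exact re_Hit_comp c Computable.snd (hi.comp Primrec.fst).to_comp
          (hw.comp Primrec.fst).to_comp
      · refine re_all_mem (p := fun u : ((Code × (Facts × ℕ × ℕ × Bool)) × Facts) × (ℕ × Bool) =>
          (u.2.1 % 2 = 0 ∧ u.2 ∈ u.1.1.2.1) ∨
          (u.2.1 % 2 = 1 ∧ (u.1.1.1.eval
            (encode (u.1.1.2.1, u.1.1.2.2.1 - 1, u.2.1 / 2, u.2.2))).Dom)) ?_ Computable.snd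
        have hf1 : Primrec (fun u : ((Code × (Facts × ℕ × ℕ × Bool)) × Facts) × (ℕ × Bool) =>
          u.2.1) := Primrec.fst.comp Primrec.snd
        have hy : Primrec (fun u : ((Code × (Facts × ℕ × ℕ × Bool)) × Facts) × (ℕ × Bool) =>
          u.1.1) := Primrec.fst.comp Primrec.fst
        refine re_or (re_and (re_of_prim (pr_even hf1 0)) (re_of_prim ?_))
          (re_and (re_of_prim (pr_even hf1 1)) ?_)
        · exact pr_mem.comp Primrec.snd (hD.comp hy)
        · refine re_comp re_eval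
            (f := fun u : ((Code × (Facts × ℕ × ℕ × Bool)) × Facts) × (ℕ × Bool) =>
            (u.1.1.1, encode (u.1.1.2.1, u.1.1.2.2.1 - 1, u.2.1 / 2, u.2.2))) ?_
          refine Primrec.to_comp ?_
          refine (Primrec.fst.comp hy).pair ?_
          refine Primrec.encode.comp ?_
          refine (hD.comp hy).pair ?_
          refine (Primrec.nat_sub.comp (hk.comp hy) (Primrec.const 1)).pair ?_
          exact (pr_half hf1).pair (Primrec.snd.comp Primrec.snd)
  obtain ⟨e, he⟩ := re_rec hre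
  set W : ℕ → Facts → ℕ → Bool → Prop := fun k D i w => (e.eval (encode (D, k, i, w))).Dom
    with hW
  have hW0 : ∀ D i w, W 0 D i w ↔ (2 * i + 1, w) ∈ D := by
    intro D i w
    have := he (D, 0, i, w)
    simpa [hW] using this
  have hW1 : ∀ k D i w, W (k + 1) D i w ↔ ∃ E : Facts, Hit c E i w ∧ Lift (W k D) D E := by
    intro k D i w
    have := he (D, k + 1, i, w)
    simpa [hW, Lift] using this
  have hmono : ∀ k D E i w, (∀ y ∈ D, y ∈ E) → W k D i w → W k E i w := by
    intro k
    induction k with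
    | zero =>
      intro D E i w hs h
      rw [hW0] at h ⊢
      exact hs _ h
    | succ k ih =>
      intro D E i w hs h
      rw [hW1] at h ⊢
      obtain ⟨E', h1, h2⟩ := h
      refine ⟨E', h1, fun f hf => ?_⟩
      rcases h2 f hf with h | h
      · exact Or.inl ⟨h.1, hs _ h.2⟩
      · exact Or.inr ⟨h.1, ih _ _ _ _ hs h.2⟩
  have hcorr : ∀ k i w, Z k i = w ↔ ∃ D, Tr (join O (Z 0)) D ∧ W k D i w := by
    intro k
    induction k with
    | zero =>
      intro i w
      constructor
      · intro h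
        exact ⟨[(2 * i + 1, w)], Tr.singleton (by simpa using h), by rw [hW0]; simp⟩
      · rintro ⟨D, hD, h⟩
        rw [hW0] at h
        have := hD _ h
        simpa using this
    | succ k ih =>
      intro i w
      rw [hc k i w]
      constructor
      · rintro ⟨E, hE, hEh⟩
        obtain ⟨D, hD, hL⟩ := (Tr_join_iff (hmono k) ih E).1 hE
        exact ⟨D, hD, (hW1 _ _ _ _).2 ⟨E, hEh, hL⟩⟩
      · rintro ⟨D, hD, h⟩
        obtain ⟨E, hEh, hL⟩ := (hW1 _ _ _ _).1 h
        exact ⟨E, (Tr_join_iff (hmono k) ih E).2 ⟨D, hD, hL⟩, hEh⟩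
  have hfin : REPred (fun x : Facts × ℕ × Bool =>
      ∃ E : Facts, Hit cX E 0 x.2.2 ∧ Lift (W x.2.1 x.1) x.1 E) := by
    refine re_ex (p := fun z : (Facts × ℕ × Bool) × Facts =>
      Hit cX z.2 0 z.1.2.2 ∧ Lift (W z.1.2.1 z.1.1) z.1.1 z.2) ?_
    refine re_and ?_ ?_
    · exact re_Hit_comp cX Computable.snd (Computable.const 0)
        (Computable.snd.comp (Computable.snd.comp Computable.fst))
    · refine re_all_mem (p := fun u : ((Facts × ℕ × Bool) × Facts) × (ℕ × Bool) =>
        (u.2.1 % 2 = 0 ∧ u.2 ∈ u.1.1.1) ∨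
        (u.2.1 % 2 = 1 ∧ (e.eval (encode (u.1.1.1, u.1.1.2.1, u.2.1 / 2, u.2.2))).Dom)) ?_
        Computable.snd
      have hf1 : Primrec (fun u : ((Facts × ℕ × Bool) × Facts) × (ℕ × Bool) => u.2.1) :=
        Primrec.fst.comp Primrec.snd
      have hD : Primrec (fun u : ((Facts × ℕ × Bool) × Facts) × (ℕ × Bool) => u.1.1.1) :=
        Primrec.fst.comp (Primrec.fst.comp Primrec.fst)
      have hk : Primrec (fun u : ((Facts × ℕ × Bool) × Facts) × (ℕ × Bool) => u.1.1.2.1) :=
        Primrec.fst.comp (Primrec.snd.comp (Primrec.fst.comp Primrec.fst))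
      refine re_or (re_and (re_of_prim (pr_even hf1 0)) (re_of_prim ?_))
        (re_and (re_of_prim (pr_even hf1 1)) ?_)
      · exact pr_mem.comp Primrec.snd hD
      · refine re_comp re_eval
          (f := fun u : ((Facts × ℕ × Bool) × Facts) × (ℕ × Bool) =>
          (e, encode (u.1.1.1, u.1.1.2.1, u.2.1 / 2, u.2.2))) ?_
        refine Primrec.to_comp ?_
        refine (Primrec.const e).pair ?_
        refine Primrec.encode.comp ?_
        exact hD.pair (hk.pair ((pr_half hf1).pair (Primrec.snd.comp Primrec.snd)))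
  obtain ⟨d, hd⟩ := hit_code (p := fun D n v => ∃ E : Facts, Hit cX E 0 v ∧ Lift (W n D) D E) hfin
  refine ⟨d, fun k w => ?_⟩
  have h1 : X k = w ↔ ∃ E, Tr (join O (Z k)) E ∧ Hit cX E 0 w := hcX k 0 w
  rw [h1]
  simp only [hd]
  constructor
  · rintro ⟨E, hE, hEh⟩
    obtain ⟨D, hD, hL⟩ := (Tr_join_iff (hmono k) (hcorr k) E).1 hE
    exact ⟨D, hD, E, hEh, hL⟩
  · rintro ⟨D, hD, E, hEh, hL⟩
    exact ⟨E, (Tr_join_iff (hmono k) (hcorr k) E).2 ⟨D, hD, hL⟩, hEh⟩

/-- truth-table reductions -/
theorem Red_of_tt {a b : Om} (u : ℕ → ℕ) (h : ℕ → List Bool → Bool) (hu : Computable u)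
    (hh : Computable₂ h) (H : ∀ n, a n = h n ((List.range (u n)).map b)) : ∃ c, Red c b a := by
  have hre : REPred (fun x : Facts × ℕ × Bool => ∃ l : List Bool,
      (l.length = u x.2.1 ∧ h x.2.1 l = x.2.2) ∧ ∀ j < l.length, (j, l.getD j false) ∈ x.1) := by
    refine re_ex (p := fun z : (Facts × ℕ × Bool) × List Bool =>
      (z.2.length = u z.1.2.1 ∧ h z.1.2.1 z.2 = z.1.2.2) ∧
        ∀ j < z.2.length, (j, z.2.getD j false) ∈ z.1.1) ?_
    have hn : Primrec (fun z : (Facts × ℕ × Bool) × List Bool => z.1.2.1) :=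
      Primrec.fst.comp (Primrec.snd.comp Primrec.fst)
    refine re_and (re_and ?_ ?_) ?_
    · refine ComputablePred.to_re ?_
      refine Computable.computablePred ?_
      exact (Primrec.eq (α := ℕ)).decide.to_comp.comp
        (Primrec.list_length.comp Primrec.snd).to_comp (hu.comp hn.to_comp)
    · refine ComputablePred.to_re ?_
      refine Computable.computablePred ?_
      exact (Primrec.eq (α := Bool)).decide.to_comp.comp
        (hh.comp hn.to_comp Computable.snd)
        (Primrec.snd.comp (Primrec.snd.comp Primrec.fst)).to_comp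
    · refine re_of_prim ?_
      have hR : PrimrecRel (fun (j : ℕ) (y : List Bool × Facts) => (j, y.1.getD j false) ∈ y.2) := by
        refine pr_mem.comp ?_ ?_
        · exact Primrec.fst.pair ((Primrec.list_getD false).comp
            (Primrec.fst.comp Primrec.snd) Primrec.fst)
        · exact Primrec.snd.comp Primrec.snd
      have := (hR.forall_mem_list).comp
        (f := fun z : (Facts × ℕ × Bool) × List Bool => List.range z.2.length)
        (g := fun z : (Facts × ℕ × Bool) × List Bool => (z.2, z.1.1))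
        (Primrec.list_range.comp (Primrec.list_length.comp Primrec.snd))
        (Primrec.snd.pair (Primrec.fst.comp Primrec.fst))
      exact this.of_eq (fun z => by simp)
  obtain ⟨c, hc⟩ := hit_code (p := fun D n v => ∃ l : List Bool,
      (l.length = u n ∧ h n l = v) ∧ ∀ j < l.length, (j, l.getD j false) ∈ D) hre
  refine ⟨c, fun n v => ?_⟩
  simp only [hc]
  constructor
  · intro hv
    refine ⟨(List.range (u n)).map (fun j => (j, b j)), ?_, (List.range (u n)).map b,
      ⟨by simp, by rw [← H n]; exact hv⟩, ?_⟩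
    · intro f hf
      rw [List.mem_map] at hf
      obtain ⟨j, _, rfl⟩ := hf
      rfl
    · intro j hj
      rw [List.mem_map]
      refine ⟨j, by simpa using hj, ?_⟩
      simp at hj
      simp [List.getD, hj]
  · rintro ⟨D, hD, l, ⟨hl, hv⟩, hm⟩
    rw [H n, ← hv]
    congr 1
    apply List.ext_getElem
    · simp [hl]
    · intro j h1 h2
      have := hD _ (hm j h2)
      simp only [List.getElem_map, List.getElem_range]
      rw [this]
      simp [List.getD, h2]

end Crest.Agent.R292
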