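import Crest.Agent.R292.Oracle
import Crest.Agent.R292.Uniform
import Crest.Agent.R292.AlgEq

/-!
# R292: concrete reductions
-/

set_option autoImplicit false

namespace Crest.Agent.R292

open Encodable
open Nat.Partrec (Code)

theorem TR_of_tt {a b : Om} (u : ℕ → ℕ) (h : ℕ → List Bool → Bool) (hu : Computable u)
    (hh : Computable₂ h) (H : ∀ n, a n = h n ((List.range (u n)).map b)) : TR a b :=
  TR_iff_Red.2 (Red_of_tt u h hu hh H)

/-- uniform reductions over a one point family -/
theorem TR_of_UR {a b : Om} (h : UR (fun _ : Unit => b) (fun _ => a)) : TR a b :=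
  let ⟨c, hc⟩ := h
  TR_iff_Red.2 ⟨c, hc ()⟩

theorem UR_of_TR {a b : Om} (h : TR a b) {I : Type*} : UR (fun _ : I => b) (fun _ => a) :=
  let ⟨c, hc⟩ := TR_iff_Red.1 h
  ⟨c, fun _ => hc⟩

theorem TR_left (a b : Om) : TR a (join a b) :=
  TR_of_UR (UR.left (fun _ => a) (fun _ => b))

theorem TR_right (a b : Om) : TR b (join a b) :=
  TR_of_UR (UR.right (fun _ => a) (fun _ => b))

theorem TR_join {a b d : Om} (h : TR a d) (h' : TR b d) : TR (join a b) d :=
  TR_of_UR (UR.join (UR_of_TR h) (UR_of_TR h'))

theorem TR_join_mono {a b a' b' : Om} (h : TR a a') (h' : TR b b') :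
    TR (join a b) (join a' b') :=
  TR_join (h.trans (TR_left _ _)) (h'.trans (TR_right _ _))

theorem getD_map_range (b : Om) {k n : ℕ} (h : k < n) :
    ((List.range n).map b).getD k false = b k := by
  simp [List.getD, h]

/-- two-query reductions -/
theorem TR_of_two {a b : Om} (p q : ℕ → ℕ) (F : ℕ → Bool → Bool → Bool) (hp : Primrec p)
    (hq : Primrec q) (hF : Primrec (fun x : ℕ × Bool × Bool => F x.1 x.2.1 x.2.2))
    (H : ∀ n, a n = F n (b (p n)) (b (q n))) : TR a b := by
  refine TR_of_tt (fun n => p n + q n + 1)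
    (fun n l => F n (l.getD (p n) false) (l.getD (q n) false)) ?_ ?_ ?_
  · exact (Primrec.succ.comp (Primrec.nat_add.comp hp hq)).to_comp
  · apply Primrec₂.to_comp
    have h1 : Primrec (fun x : ℕ × List Bool => x.2.getD (p x.1) false) :=
      (Primrec.list_getD false).comp Primrec.snd (hp.comp Primrec.fst)
    have h2 : Primrec (fun x : ℕ × List Bool => x.2.getD (q x.1) false) :=
      (Primrec.list_getD false).comp Primrec.snd (hq.comp Primrec.fst)
    exact hF.comp (Primrec.fst.pair (h1.pair h2))
  · intro n
    rw [getD_map_range b (by omega), getD_map_range b (by omega)]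
    exact H n

theorem TR_add (a b : Om) : TR (add a b) (join a b) := by
  refine TR_of_two (fun n => 2 * n) (fun n => 2 * n + 1) (fun _ x y => xor x y) ?_ ?_ ?_ ?_
  · exact Primrec.nat_mul.comp (Primrec.const 2) Primrec.id
  · exact Primrec.succ.comp (Primrec.nat_mul.comp (Primrec.const 2) Primrec.id)
  · exact (Primrec.dom_bool₂ xor).comp (Primrec.fst.comp Primrec.snd)
      (Primrec.snd.comp Primrec.snd)
  · intro n
    simp [add]

theorem TR_cst (x : Bool) (b : Om) : TR (cst x) b := by
  refine TR_of_two id id (fun _ _ _ => x) Primrec.id Primrec.id (Primrec.const x) ?_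
  intro n
  rfl

theorem TR_tn (m : ℕ) (a b : Om) : TR (tn m a) b := by
  refine TR_of_two id id (fun n _ _ => ((List.range m).map a).getD n false)
    Primrec.id Primrec.id ?_ ?_
  · exact (Primrec.list_getD false).comp (Primrec.const _) Primrec.fst
  · intro n
    by_cases h : n < m
    · simp only [tn, h, if_true]
      rw [getD_map_range a h]
    · simp [tn, h, List.getD]

theorem TR_shn (m : ℕ) (a : Om) : TR (shn m a) a := by
  refine TR_of_two (fun n => n - m) id (fun n x _ => if n < m then false else x) ?_ Primrec.id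
    ?_ ?_
  · exact Primrec.nat_sub.comp Primrec.id (Primrec.const m)
  · exact Primrec.ite (Primrec.nat_lt.comp Primrec.fst (Primrec.const m)) (Primrec.const false)
      (Primrec.fst.comp Primrec.snd)
  · intro n
    rfl

theorem TR_of_shn (m : ℕ) (a : Om) : TR a (shn m a) := by
  refine TR_of_two (fun n => n + m) id (fun _ x _ => x) ?_ Primrec.id
    (Primrec.fst.comp Primrec.snd) ?_
  · exact Primrec.nat_add.comp Primrec.id (Primrec.const m)
  · intro n
    simp [shn]

theorem TR_sh (a : Om) : TR (sh a) a := by
  have : sh a = shn 1 a := by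
    funext n
    cases n <;> simp [sh, shn]
  rw [this]
  exact TR_shn 1 a

theorem TR_ls (a : Om) : TR (ls a) a := by
  refine TR_of_two (fun n => n + 1) id (fun _ x _ => x) Primrec.succ Primrec.id
    (Primrec.fst.comp Primrec.snd) ?_
  intro n
  rfl

/-- the convolution as a fold -/
theorem cv_fold (x a : Om) (n : ℕ) :
    cv x a n = ((List.range (n + 1)).map (fun i => x i && a (n - i))).foldr xor false := by
  induction n generalizing x with
  | zero => simp [cv]
  | succ n ih =>
    rw [List.range_succ_eq_map]
    simp only [cv, List.map_cons, List.map_map, List.foldr_cons, ih]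
    congr 2
    apply List.map_congr_left
    intro i hi
    simp [ls]

theorem TR_cv (x a : Om) : TR (cv x a) (join x a) := by
  refine TR_of_tt (fun n => 2 * n + 2)
    (fun n l => ((List.range (n + 1)).map
      (fun i => l.getD (2 * i) false && l.getD (2 * (n - i) + 1) false)).foldr xor false) ?_ ?_ ?_
  · exact (Primrec.nat_add.comp (Primrec.nat_mul.comp (Primrec.const 2) Primrec.id)
      (Primrec.const 2)).to_comp
  · apply Primrec₂.to_comp
    have h1 : Primrec (fun y : (ℕ × List Bool) × ℕ => y.1.2.getD (2 * y.2) false) :=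
      (Primrec.list_getD false).comp (Primrec.snd.comp Primrec.fst)
        (Primrec.nat_mul.comp (Primrec.const 2) Primrec.snd)
    have h2 : Primrec (fun y : (ℕ × List Bool) × ℕ =>
        y.1.2.getD (2 * (y.1.1 - y.2) + 1) false) :=
      (Primrec.list_getD false).comp (Primrec.snd.comp Primrec.fst)
        (Primrec.succ.comp (Primrec.nat_mul.comp (Primrec.const 2)
          (Primrec.nat_sub.comp (Primrec.fst.comp Primrec.fst) Primrec.snd)))
    have h3 : Primrec₂ (fun (y : ℕ × List Bool) (i : ℕ) =>
        (y.2.getD (2 * i) false && y.2.getD (2 * (y.1 - i) + 1) false)) :=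
      (Primrec.and.comp h1 h2)
    have h4 : Primrec (fun y : ℕ × List Bool => (List.range (y.1 + 1)).map (fun i =>
        (y.2.getD (2 * i) false && y.2.getD (2 * (y.1 - i) + 1) false))) :=
      Primrec.list_map (Primrec.list_range.comp (Primrec.succ.comp Primrec.fst)) h3
    have h5 : Primrec₂ (fun (_ : ℕ × List Bool) (p : Bool × Bool) => xor p.1 p.2) :=
      (Primrec.dom_bool₂ xor).comp (Primrec.fst.comp Primrec.snd)
        (Primrec.snd.comp Primrec.snd)
    exact Primrec.list_foldr h4 (Primrec.const false) h5
  · intro n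
    rw [cv_fold]
    congr 1
    apply List.map_congr_left
    intro i hi
    have hi' : i < n + 1 := List.mem_range.1 hi
    rw [getD_map_range _ (by omega), getD_map_range _ (by omega), join_even, join_odd]

theorem TR_col (A : Om) (i : ℕ) : TR (col A i) A := by
  refine TR_of_two (fun n => Nat.pair i n) id (fun _ x _ => x) ?_ Primrec.id
    (Primrec.fst.comp Primrec.snd) ?_
  · exact Primrec₂.natPair.comp (Primrec.const i) Primrec.id
  · intro n
    rfl

theorem TR_keep (Y A : Om) : TR (keep Y A) (join Y A) := by
  refine TR_of_two (fun n => 2 * (Nat.unpair n).1) (fun n => 2 * n + 1) (fun _ x y => x && y)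
    ?_ ?_ ?_ ?_
  · exact Primrec.nat_mul.comp (Primrec.const 2) (Primrec.fst.comp Primrec.unpair)
  · exact Primrec.succ.comp (Primrec.nat_mul.comp (Primrec.const 2) Primrec.id)
  · exact Primrec.and.comp (Primrec.fst.comp Primrec.snd) (Primrec.snd.comp Primrec.snd)
  · intro n
    simp [keep]

theorem keep_del {Y A : Om} {i : ℕ} (h : Y i = false) : keep Y A = keep Y (del A i) := by
  funext m
  by_cases hm : (Nat.unpair m).1 = i
  · simp [keep, del, hm, h]
  · simp [keep, del, hm]

theorem col_keep {Y A : Om} {i : ℕ} (h : Y i = true) : col (keep Y A) i = col A i := by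
  funext n
  simp [col, keep, h]

theorem TR_del (A : Om) (i : ℕ) : TR (del A i) A := by
  refine TR_of_two id id (fun n x _ => if (Nat.unpair n).1 = i then false else x)
    Primrec.id Primrec.id ?_ ?_
  · exact Primrec.ite (Primrec.eq.comp (Primrec.fst.comp (Primrec.unpair.comp Primrec.fst))
      (Primrec.const i)) (Primrec.const false) (Primrec.fst.comp Primrec.snd)
  · intro n
    rfl

/-- finite joins -/
theorem TR_jn {N : ℕ} {B : ℕ → Om} {d : Om} (h : ∀ i < N, TR (B i) d) : TR (jn N B) d := by
  induction N with
  | zero => exact TR_cst false d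
  | succ N ih => exact TR_join (ih fun i hi => h i (by omega)) (h N (by omega))

theorem UR_jn {N : ℕ} {B : ℕ → Om} {i : ℕ} (h : i < N) {I : Type*} :
    UR (fun _ : I => jn N B) (fun _ => B i) := by
  induction N with
  | zero => omega
  | succ N ih =>
    by_cases hi : i = N
    · subst hi
      exact UR.right (fun _ => jn i B) (fun _ => B i)
    · exact UR.comp (UR.left (fun _ => jn N B) (fun _ => B N)) (ih (by omega))

end Crest.Agent.R292
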