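import Crest.Agent.R292.Defs

/-!
# R292: Baire category lemmas
-/

set_option autoImplicit false

namespace Crest.Agent.R292

open Topology Set Filter

/-- everywhere nonmeager -/
def EN {α : Type*} [TopologicalSpace α] (A : Set α) : Prop :=
  ∀ U, IsOpen U → U.Nonempty → ¬ IsMeagre (A ∩ U)

/-- sections of a dense open set -/
theorem residual_section_open {α β : Type*} [TopologicalSpace α] [TopologicalSpace β]
    [SecondCountableTopology β] {O : Set (α × β)} (hO : IsOpen O) (hd : Dense O) :
    ∀ᶠ a in residual α, {b | (a, b) ∈ O} ∈ residual β := by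
  have h1 : ∀ V ∈ TopologicalSpace.countableBasis β, V.Nonempty →
      ∀ᶠ a in residual α, ∃ b ∈ V, (a, b) ∈ O := by
    intro V hV hne
    have hVo : IsOpen V := TopologicalSpace.isOpen_of_mem_countableBasis hV
    have hset : {a | ∃ b ∈ V, (a, b) ∈ O} = Prod.fst '' (O ∩ (univ ×ˢ V)) := by
      ext a
      simp only [mem_ofPred, mem_image, mem_inter_iff, mem_prod, mem_univ, true_and,
        Prod.exists, exists_and_right, exists_eq_right]
      constructor
      · rintro ⟨b, hb, hab⟩; exact ⟨b, hab, hb⟩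
      · rintro ⟨b, hab, hb⟩; exact ⟨b, hb, hab⟩
    have ho : IsOpen {a | ∃ b ∈ V, (a, b) ∈ O} := by
      rw [hset]
      exact isOpenMap_fst _ (hO.inter (isOpen_univ.prod hVo))
    have hdense : Dense {a | ∃ b ∈ V, (a, b) ∈ O} := by
      rw [dense_iff_inter_open]
      intro U hU hUne
      obtain ⟨a, ha⟩ := hUne
      obtain ⟨b, hb⟩ := hne
      obtain ⟨⟨a', b'⟩, hx, hx'⟩ := hd.inter_open_nonempty (U ×ˢ V) (hU.prod hVo)
        ⟨(a, b), ha, hb⟩
      exact ⟨a', hx.1, b', hx.2, hx'⟩
    exact residual_of_dense_open ho hdense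
  have h2 : ∀ᶠ a in residual α, ∀ V ∈ TopologicalSpace.countableBasis β, V.Nonempty →
      ∃ b ∈ V, (a, b) ∈ O := by
    rw [eventually_countable_ball (TopologicalSpace.countable_countableBasis β)]
    intro V hV
    by_cases hne : V.Nonempty
    · filter_upwards [h1 V hV hne] with a ha _ using ha
    · exact Eventually.of_forall (fun a h => absurd h hne)
  filter_upwards [h2] with a ha
  apply residual_of_dense_open
  · exact hO.preimage (Continuous.prodMk_right a)
  · rw [(TopologicalSpace.isBasis_countableBasis β).dense_iff]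
    intro V hV hne
    obtain ⟨b, hb, hab⟩ := ha V hV hne
    exact ⟨b, hb, hab⟩

/-- Kuratowski–Ulam, easy direction -/
theorem kuratowski_ulam {α β : Type*} [TopologicalSpace α] [TopologicalSpace β]
    [SecondCountableTopology β] {G : Set (α × β)} (hG : G ∈ residual (α × β)) :
    ∀ᶠ a in residual α, {b | (a, b) ∈ G} ∈ residual β := by
  rw [mem_residual_iff] at hG
  obtain ⟨S, hSo, hSd, hSc, hS⟩ := hG
  have h : ∀ᶠ a in residual α, ∀ O ∈ S, {b | (a, b) ∈ O} ∈ residual β := by
    rw [eventually_countable_ball hSc]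
    intro O hO
    exact residual_section_open (hSo O hO) (hSd O hO)
  filter_upwards [h] with a ha
  have h2 : ∀ᶠ b in residual β, ∀ O ∈ S, (a, b) ∈ O := by
    rw [eventually_countable_ball hSc]
    intro O hO
    exact ha O hO
  filter_upwards [h2] with b hb
  apply hS
  intro O hO
  exact hb O hO

/-- a nonmeager set is everywhere nonmeager in some nonempty open set -/
theorem exists_open_EN {α : Type*} [TopologicalSpace α] [SecondCountableTopology α]
    {S : Set α} (hS : ¬ IsMeagre S) :
    ∃ U, IsOpen U ∧ U.Nonempty ∧ ∀ V, IsOpen V → V ⊆ U → V.Nonempty → ¬ IsMeagre (S ∩ V) := by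
  by_contra hcon
  push Not at hcon
  apply hS
  set B : Set (Set α) := {V ∈ TopologicalSpace.countableBasis α | IsMeagre (S ∩ V)} with hB
  have hBc : B.Countable := (TopologicalSpace.countable_countableBasis α).mono (fun V hV => hV.1)
  set W : Set α := ⋃₀ B with hW
  have hWo : IsOpen W := isOpen_sUnion
    (fun V hV => TopologicalSpace.isOpen_of_mem_countableBasis hV.1)
  have hWd : Dense W := by
    rw [dense_iff_inter_open]
    intro U hU hUne
    obtain ⟨V, hVo, hVU, hVne, hVm⟩ := hcon U hU hUne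
    obtain ⟨x, hx⟩ := hVne
    obtain ⟨V', hV', hxV', hV'V⟩ :=
      (TopologicalSpace.isBasis_countableBasis α).exists_subset_of_mem_open hx hVo
    exact ⟨x, hVU hx, V', ⟨hV', hVm.mono (inter_subset_inter_right _ hV'V)⟩, hxV'⟩
  have h1 : IsMeagre (S ∩ W) := by
    have : S ∩ W = ⋃ V ∈ B, S ∩ V := by
      rw [hW, sUnion_eq_biUnion, inter_iUnion₂]
    rw [this]
    exact isMeagre_biUnion hBc (fun V hV => hV.2)
  have h2 : IsMeagre Wᶜ := by
    unfold IsMeagre
    rw [compl_compl]
    exact residual_of_dense_open hWo hWd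
  refine (h1.union h2).mono ?_
  intro x hx
  by_cases hxW : x ∈ W
  · exact Or.inl ⟨hx, hxW⟩
  · exact Or.inr hxW

/-- A Baire measurable set containing (in `U`) a set that is everywhere nonmeager in `U` is
comeager in `U`. -/
theorem meagre_diff_of_EN {α : Type*} [TopologicalSpace α] {B U S : Set α}
    (hB : BaireMeasurableSet B) (hU : IsOpen U)
    (hS : ∀ V, IsOpen V → V ⊆ U → V.Nonempty → ¬ IsMeagre (S ∩ V)) (hSB : S ∩ U ⊆ B) :
    IsMeagre (U \ B) := by
  obtain ⟨O, hO, hOe⟩ := (hU.baireMeasurableSet.diff hB).residualEq_isOpen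
  have hev : ∀ᶠ x in residual α, (x ∈ U \ B ↔ x ∈ O) := by
    filter_upwards [hOe] with x hx
    exact iff_of_eq hx
  by_cases hne : (O ∩ U).Nonempty
  · exfalso
    apply hS (O ∩ U) (hO.inter hU) inter_subset_right hne
    show (S ∩ (O ∩ U))ᶜ ∈ residual α
    filter_upwards [hev] with x hx
    rintro ⟨hxS, hxO, hxU⟩
    exact (hx.2 hxO).2 (hSB ⟨hxS, hxU⟩)
  · show (U \ B)ᶜ ∈ residual α
    filter_upwards [hev] with x hx hxUB
    exact hne ⟨x, hx.1 hxUB, hxUB.1⟩

/-- the sequence `x, w 0, w 1, …` -/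
def consSeq (x : Om) (w : ℕ → Om) : ℕ → Om
  | 0 => x
  | n + 1 => w n

/-- prepending a coordinate is a homeomorphism -/
def consHomeo : Om × (ℕ → Om) ≃ₜ (ℕ → Om) where
  toFun p := consSeq p.1 p.2
  invFun w := (w 0, fun n => w (n + 1))
  left_inv p := rfl
  right_inv w := by
    funext n
    cases n <;> rfl
  continuous_toFun := by
    apply continuous_pi
    intro n
    cases n with
    | zero => exact continuous_fst
    | succ n => exact (continuous_apply n).comp continuous_snd
  continuous_invFun := by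
    apply Continuous.prodMk
    · exact continuous_apply 0
    · apply continuous_pi
      intro n
      exact continuous_apply (n + 1)

/-- choosing finitely many coordinates in everywhere nonmeager sets, inside a comeager set -/
theorem exists_mem_of_EN (A : ℕ → Set Om) (hA : ∀ i, EN (A i)) (U : ℕ → Set Om)
    (hU : ∀ i, IsOpen (U i) ∧ (U i).Nonempty) (G : Set (ℕ → Om)) (hG : G ∈ residual (ℕ → Om))
    (N : ℕ) : ∃ w ∈ G, ∀ i < N, w i ∈ A i ∩ U i := by
  induction N generalizing A U G with
  | zero =>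
    obtain ⟨w, hw⟩ := (dense_of_mem_residual hG).nonempty
    exact ⟨w, hw, fun i hi => absurd hi (Nat.not_lt_zero i)⟩
  | succ N ih =>
    have h1 : consHomeo ⁻¹' G ∈ residual (Om × (ℕ → Om)) :=
      tendsto_residual_of_isOpenMap consHomeo.continuous consHomeo.isOpenMap hG
    have h2 := kuratowski_ulam h1
    obtain ⟨x, hx, hxA⟩ : ∃ x, {w | (x, w) ∈ consHomeo ⁻¹' G} ∈ residual (ℕ → Om) ∧
        x ∈ A 0 ∩ U 0 := by
      by_contra hcon
      push Not at hcon
      apply hA 0 (U 0) (hU 0).1 (hU 0).2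
      show (A 0 ∩ U 0)ᶜ ∈ residual Om
      filter_upwards [h2] with x hx
      exact hcon x hx
    obtain ⟨w, hw, hwA⟩ := ih (fun i => A (i + 1)) (fun i => hA (i + 1)) (fun i => U (i + 1))
      (fun i => hU (i + 1)) _ hx
    refine ⟨consSeq x w, hw, ?_⟩
    intro i hi
    cases i with
    | zero => exact hxA
    | succ i => exact hwA i (by omega)

/-- an open set of reals containing `x` contains a cylinder around `x` -/
theorem cat_exists_cyl {U : Set Om} (hU : IsOpen U) {x : Om} (hx : x ∈ U) :
    ∃ M, ∀ y : Om, (∀ i < M, y i = x i) → y ∈ U := by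
  rw [isOpen_pi_iff] at hU
  obtain ⟨I, u, hu, hsub⟩ := hU x hx
  refine ⟨I.sup id + 1, fun y hy => hsub ?_⟩
  intro i hi
  rw [hy i (Nat.lt_succ_of_le (Finset.le_sup (f := id) hi))]
  exact (hu i hi).2

/-- A measurable map is continuous on a comeager set. -/
theorem measurable_cont (g : Om → Om) (hg : Measurable g) :
    ∃ C ∈ residual Om, ∀ x ∈ C, ∀ n, ∃ M, ∀ y ∈ C, (∀ i < M, y i = x i) → g y n = g x n := by
  have hB : ∀ (n : ℕ) (v : Bool), ∃ u : Set Om, IsOpen u ∧
      {x | g x n = v} =ᶠ[residual Om] u := by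
    intro n v
    have hm : MeasurableSet {x | g x n = v} :=
      (measurable_pi_iff.1 hg n) (measurableSet_singleton v)
    exact hm.residualEq_isOpen
  choose u hu hue using hB
  refine ⟨{x | ∀ (n : ℕ) (v : Bool), g x n = v ↔ x ∈ u n v}, ?_, ?_⟩
  · show ∀ᶠ x in residual Om, ∀ (n : ℕ) (v : Bool), (g x n = v ↔ x ∈ u n v)
    rw [eventually_countable_forall]
    intro n
    rw [eventually_countable_forall]
    intro v
    filter_upwards [hue n v] with x hx
    exact iff_of_eq hx
  · intro x hx n
    have h1 : x ∈ u n (g x n) := (hx n (g x n)).1 rfl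
    obtain ⟨M, hM⟩ := cat_exists_cyl (hu n (g x n)) h1
    exact ⟨M, fun y hy hyx => (hy n (g x n)).2 (hM y hyx)⟩

end Crest.Agent.R292
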