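import Crest.Agent.R292.AlgEq
import Crest.Agent.R292.Cat

/-!
# R292: open maps and comeager sets
-/

set_option autoImplicit false

namespace Crest.Agent.R292

open Topology Set Filter

/-- The maps used to pull back the generic relations. -/
theorem open_pair (c1 c2 : Om → Om) (h1 : Continuous c1) (h2 : Continuous c2) (j : ℕ)
    (hj : 2 ≤ j) :
    Continuous (fun w : ℕ → Om => (add (w 0) (c1 (w 1)), add (w j) (c2 (w 1)))) ∧
    IsOpenMap (fun w : ℕ → Om => (add (w 0) (c1 (w 1)), add (w j) (c2 (w 1)))) := by
  have hp : ∀ i : ℕ, Continuous (fun w : ℕ → Om => w i) := fun i => continuous_apply i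
  constructor
  · exact (continuous_add.comp ((hp 0).prodMk (h1.comp (hp 1)))).prodMk
      (continuous_add.comp ((hp j).prodMk (h2.comp (hp 1))))
  · refine IsOpenMap.of_sections fun w => ?_
    refine ⟨fun p => Function.update (Function.update w 0 (add p.1 (c1 (w 1)))) j
      (add p.2 (c2 (w 1))), ?_, ?_, ?_⟩
    · refine Continuous.continuousAt ?_
      refine Continuous.update (Continuous.update continuous_const 0 ?_) j ?_
      · exact continuous_add.comp (continuous_fst.prodMk continuous_const)
      · exact continuous_add.comp (continuous_snd.prodMk continuous_const)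
    · funext i
      show Function.update (Function.update w 0 (add (add (w 0) (c1 (w 1))) (c1 (w 1)))) j
        (add (add (w j) (c2 (w 1))) (c2 (w 1))) i = w i
      by_cases hij : i = j
      · subst hij
        simp only [Function.update_self]
        rw [add_assoc, add_self, add_zero]
      · rw [Function.update_of_ne hij]
        by_cases hi0 : i = 0
        · subst hi0
          simp only [Function.update_self]
          rw [add_assoc, add_self, add_zero]
        · rw [Function.update_of_ne hi0]
    · intro p
      have h1j : (1 : ℕ) ≠ j := by omega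
      have h0j : (0 : ℕ) ≠ j := by omega
      have e1 : Function.update (Function.update w 0 (add p.1 (c1 (w 1)))) j
          (add p.2 (c2 (w 1))) 1 = w 1 := by
        rw [Function.update_of_ne h1j, Function.update_of_ne (by omega)]
      have e0 : Function.update (Function.update w 0 (add p.1 (c1 (w 1)))) j
          (add p.2 (c2 (w 1))) 0 = add p.1 (c1 (w 1)) := by
        rw [Function.update_of_ne h0j, Function.update_self]
      show (add (Function.update (Function.update w 0 (add p.1 (c1 (w 1)))) j
          (add p.2 (c2 (w 1))) 0) (c1 (Function.update (Function.update w 0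
            (add p.1 (c1 (w 1)))) j (add p.2 (c2 (w 1))) 1)),
          add (Function.update (Function.update w 0 (add p.1 (c1 (w 1)))) j
          (add p.2 (c2 (w 1))) j) (c2 (Function.update (Function.update w 0
            (add p.1 (c1 (w 1)))) j (add p.2 (c2 (w 1))) 1))) = p
      rw [e0, e1, Function.update_self, add_assoc, add_self, add_zero, add_assoc, add_self,
        add_zero]

/-- pulling back an eventual property of the residual filter along a continuous open map -/
theorem residual_pull {α β : Type*} [TopologicalSpace α] [TopologicalSpace β] {f : α → β}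
    (hc : Continuous f) (ho : IsOpenMap f) {P : β → Prop} (h : ∀ᶠ b in residual β, P b) :
    ∀ᶠ a in residual α, P (f a) :=
  (tendsto_residual_of_isOpenMap hc ho).eventually h

/-- change of coordinates `(Y, γ, W…) ↦ (Y, Y + γ, W…)` -/
theorem residual_coord {P : (ℕ → Om) → Prop}
    (h : ∀ᶠ w in residual (ℕ → Om), P (fun i => if i = 1 then add (w 0) (w 1) else w i)) :
    ∀ᶠ w in residual (ℕ → Om), P w := by
  have hc : Continuous (fun (w : ℕ → Om) (i : ℕ) => if i = 1 then add (w 0) (w 1) else w i) := by
    have hp : ∀ i : ℕ, Continuous (fun w : ℕ → Om => w i) := fun i => continuous_apply i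
    refine continuous_pi fun i => ?_
    by_cases hi : i = 1
    · simp only [hi, if_true]
      exact continuous_add.comp ((hp 0).prodMk (hp 1))
    · simp only [hi, if_false]
      exact hp i
  have hinv : ∀ w : ℕ → Om, (fun (i : ℕ) => if i = 1 then
      add ((fun (i : ℕ) => if i = 1 then add (w 0) (w 1) else w i) 0)
        ((fun (i : ℕ) => if i = 1 then add (w 0) (w 1) else w i) 1) else
      (fun (i : ℕ) => if i = 1 then add (w 0) (w 1) else w i) i) = w := by
    intro w
    funext i
    by_cases hi : i = 1
    · subst hi
      simp only [if_true]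
      simp only [show (0 : ℕ) ≠ 1 by omega, if_false]
      exact add_add_cancel _ _
    · simp only [hi, if_false]
  have ho : IsOpenMap (fun (w : ℕ → Om) (i : ℕ) => if i = 1 then add (w 0) (w 1) else w i) := by
    refine IsOpenMap.of_sections fun w => ⟨_, hc.continuousAt, hinv w, fun v => hinv v⟩
  have := residual_pull hc ho h
  filter_upwards [this] with w hw
  have e := hinv w
  rw [← e]
  exact hw

/-- flattening is a homeomorphism -/
theorem residual_flat {P : Om → Prop} (h : ∀ᶠ H in residual Om, P H) :
    ∀ᶠ w in residual (ℕ → Om), P (flat w) := by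
  have hc : Continuous flat := by
    refine continuous_pi fun m => ?_
    exact (continuous_apply (Nat.unpair m).2).comp (continuous_apply (Nat.unpair m).1)
  have ho : IsOpenMap flat := by
    refine IsOpenMap.of_sections fun w => ⟨fun A i => col A i, ?_, ?_, ?_⟩
    · refine Continuous.continuousAt ?_
      refine continuous_pi fun i => continuous_pi fun n => ?_
      exact continuous_apply (Nat.pair i n)
    · funext i
      exact col_flat w i
    · intro A
      funext m
      show A (Nat.pair (Nat.unpair m).1 (Nat.unpair m).2) = A m
      rw [Nat.pair_unpair]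
  exact residual_pull hc ho h

/-- preimages of comeager sets under `(T, W) ↦ c(T) + W`, `c` continuous. -/
theorem residual_shear {P : Om → Prop} (h : ∀ᶠ H in residual Om, P H) (c : Om → Om)
    (hc : Continuous c) : ∀ᶠ p in residual (Om × Om), P (add (c p.1) p.2) := by
  have hc' : Continuous (fun p : Om × Om => add (c p.1) p.2) :=
    continuous_add.comp ((hc.comp continuous_fst).prodMk continuous_snd)
  have ho : IsOpenMap (fun p : Om × Om => add (c p.1) p.2) := by
    refine IsOpenMap.of_sections fun p => ⟨fun y => (p.1, add (c p.1) y), ?_, ?_, ?_⟩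
    · exact (continuous_const.prodMk
        (continuous_add.comp (continuous_const.prodMk continuous_id))).continuousAt
    · exact Prod.ext rfl (add_add_cancel _ _)
    · intro y
      exact add_add_cancel _ _
  exact residual_pull hc' ho h

theorem residual_fst {P : Om → Prop} (h : ∀ᶠ H in residual Om, P H) :
    ∀ᶠ p in residual (Om × Om), P p.1 :=
  residual_pull continuous_fst isOpenMap_fst h

theorem residual_snd {P : Om → Prop} (h : ∀ᶠ H in residual Om, P H) :
    ∀ᶠ p in residual (Om × Om), P p.2 :=
  residual_pull continuous_snd isOpenMap_snd h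

/-- every open neighbourhood of a real contains a cylinder -/
theorem cat2_exists_cyl {V : Set Om} (hV : IsOpen V) {a : Om} (ha : a ∈ V) :
    ∃ m : ℕ, ∀ b : Om, (∀ i < m, b i = a i) → b ∈ V := by
  rw [isOpen_pi_iff] at hV
  obtain ⟨I, u, hu, hsub⟩ := hV a ha
  refine ⟨I.sup id + 1, fun b hb => hsub ?_⟩
  intro i hi
  have hi' : i ≤ I.sup id := Finset.le_sup (f := id) hi
  rw [hb i (by omega)]
  exact (hu i hi).2

/-- every nonempty open subset of `Om × Om` contains a product of two cylinders of the same
length `m`. -/
theorem exists_cylinder {U : Set (Om × Om)} (hU : IsOpen U) (hne : U.Nonempty) :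
    ∃ (t0 w0 : Om) (m : ℕ), ∀ T W : Om, (add (tn m t0) (shn m T), add (tn m w0) (shn m W)) ∈ U := by
  obtain ⟨⟨a, b⟩, hab⟩ := hne
  rw [isOpen_prod_iff] at hU
  obtain ⟨V, V', hV, hV', ha, hb, hsub⟩ := hU a b hab
  obtain ⟨m, hm⟩ := cat2_exists_cyl hV ha
  obtain ⟨m', hm'⟩ := cat2_exists_cyl hV' hb
  refine ⟨a, b, max m m', fun T W => hsub ⟨hm _ ?_, hm' _ ?_⟩⟩
  · intro i hi
    have : i < max m m' := lt_of_lt_of_le hi (le_max_left _ _)
    simp [add, tn, shn, this]
  · intro i hi
    have : i < max m m' := lt_of_lt_of_le hi (le_max_right _ _)
    simp [add, tn, shn, this]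

end Crest.Agent.R292
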