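import Crest.Agent.R292.Alg

/-!
# R292: the degree structure
-/

set_option autoImplicit false

namespace Crest.Agent.R292

open Crest.LogicCS.Degrees

theorem chi_eq_charFun (a : Om) : charFun {n | a n = true} = chi a := by
  funext n
  unfold charFun chi
  congr 1
  by_cases h : a n = true
  · simp [Set.indicator, h]
  · simp [Set.indicator, h]

theorem dg_le_iff (a b : Om) : dg a ≤ dg b ↔ TR a b := by
  have h : dg a ≤ dg b ↔
      TuringReducible (charFun {n | a n = true}) (charFun {n | b n = true}) := Iff.rfl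
  rw [h, chi_eq_charFun, chi_eq_charFun]
  exact Iff.rfl

theorem dg_surj (d : SetDegree) : ∃ a, dg a = d := by
  classical
  obtain ⟨d, A, rfl⟩ := d
  refine ⟨fun n => decide (n ∈ A), ?_⟩
  unfold dg
  apply Subtype.ext
  change degOf _ = degOf A
  congr 1
  ext n
  simp

theorem dg_eq_of {a b : Om} (h : TR a b) (h' : TR b a) : dg a = dg b :=
  le_antisymm ((dg_le_iff a b).2 h) ((dg_le_iff b a).2 h')

/-- join-preservation in the form used: if `a ≤_T b ⊕ d`, then any representatives of the
images satisfy the same relation. -/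
theorem TR_image (π : SetDegree ≃o SetDegree) {a b d a' b' d' : Om} (h : TR a (join b d))
    (ha : dg a' = π (dg a)) (hb : dg b' = π (dg b)) (hd : dg d' = π (dg d)) :
    TR a' (join b' d') := by
  rw [← dg_le_iff, ha]
  -- the join of `b'` and `d'` is `π` of something
  obtain ⟨e, he⟩ := dg_surj (π.symm (dg (join b' d')))
  have he' : π (dg e) = dg (join b' d') := by rw [he]; simp
  rw [← he']
  refine π.monotone ?_
  refine le_trans ((dg_le_iff _ _).2 h) ?_
  rw [dg_le_iff]
  refine TR_join ?_ ?_
  · rw [← dg_le_iff, ← π.le_iff_le, he', ← hb, dg_le_iff]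
    exact TR_left _ _
  · rw [← dg_le_iff, ← π.le_iff_le, he', ← hd, dg_le_iff]
    exact TR_right _ _

theorem TR_image1 (π : SetDegree ≃o SetDegree) {a b a' b' : Om}
    (ha : dg a' = π (dg a)) (hb : dg b' = π (dg b)) : TR a' b' ↔ TR a b := by
  rw [← dg_le_iff, ha, hb, π.le_iff_le, dg_le_iff]

theorem TR_image3 (π : SetDegree ≃o SetDegree) {a b d e a' b' d' e' : Om}
    (h : TR a (join b (join d e)))
    (ha : dg a' = π (dg a)) (hb : dg b' = π (dg b)) (hd : dg d' = π (dg d))
    (he : dg e' = π (dg e)) : TR a' (join b' (join d' e')) := by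
  obtain ⟨k, hk⟩ := dg_surj (π (dg (join d e)))
  have h1 : TR a' (join b' k) := TR_image π h ha hb hk
  have h2 : TR k (join d' e') := TR_image π (TR.refl _) hk hd he
  exact h1.trans (TR_join_mono (TR.refl _) h2)

theorem dg_symm {π : SetDegree ≃o SetDegree} {a a' : Om} (h : dg a' = π (dg a)) :
    dg a = π.symm (dg a') := by
  rw [h]; simp

end Crest.Agent.R292
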