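import Crest.Agent.R292.Generic
import Crest.Agent.R292.Deg

/-!
# R292: the Borel bound
-/

set_option autoImplicit false

namespace Crest.Agent.R292

open Encodable Topology Set Filter
open Nat.Partrec (Code)
open Crest.LogicCS.Degrees

/-- Coding lemma. `A` has independent columns and `Y` does not help to compute column `i` from the
others.  Then for any automorphism `ρ`, `Y` is recovered from any `R` with `dg R = ρ (dg Y)`:
put `B = keep Y A ≤_T Y ⊕ A`; `Y i ↔ TR (col A i) B`; take `B'` with `dg B' = ρ (dg B)`,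
`B' ≤_T R ⊕ C`, so `Red c (join R C) B'` for some `c`. -/
theorem coding (ρ : SetDegree ≃o SetDegree) {A Y R C : Om} {A' : ℕ → Om}
    (hY : ∀ i, ¬ TR (col A i) (join Y (del A i)))
    (hR : dg R = ρ (dg Y)) (hC : dg C = ρ (dg A)) (hA' : ∀ i, dg (A' i) = ρ (dg (col A i))) :
    ∃ c : Code, ∀ i, Y i = true ↔ TR (A' i) (Ft c (join R C)) := by
  obtain ⟨B', hB'⟩ := dg_surj (ρ (dg (keep Y A)))
  have h1 : TR B' (join R C) := TR_image ρ (TR_keep Y A) hB' hR hC
  obtain ⟨c, hc⟩ := Red_of_TR h1
  refine ⟨c, fun i => ?_⟩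
  rw [hc.Ft_eq, TR_image1 ρ (hA' i) hB']
  constructor
  · intro hYi
    rw [← col_keep hYi]
    exact TR_col _ _
  · intro h
    by_contra hYi
    rw [Bool.not_eq_true] at hYi
    refine hY i (h.trans ?_)
    rw [keep_del hYi]
    exact TR_keep _ _

/-- measurability of the decoding functions -/
theorem measurable_decode (A' : ℕ → Om) (C : Om) (c : Code) :
    Measurable (fun R : Om => fun i : ℕ =>
      (by classical exact decide (TR (A' i) (Ft c (join R C))) : Bool)) := by
  classical
  refine measurable_pi_lambda _ fun i => ?_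
  have hm : Measurable (fun R : Om => Ft c (join R C)) :=
    (measurable_Ft c).comp (measurable_join.comp (measurable_id.prodMk measurable_const))
  have hs : MeasurableSet {R : Om | TR (A' i) (Ft c (join R C))} :=
    hm (measurableSet_TR (A' i))
  refine measurable_to_bool ?_
  convert hs using 1
  ext R
  simp

/-- Every representative of `π (dg R)` is a Borel function of `R` (countably many functions),
for comeager many `R`. -/
theorem borel_bound (π : SetDegree ≃o SetDegree) :
    ∃ G : Code → Om → Om, (∀ c, Measurable (G c)) ∧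
      ∀ᶠ R in residual Om, ∀ Y : Om, dg Y = π (dg R) → ∃ c, G c R = Y := by
  classical
  obtain ⟨A, hA⟩ := exists_indep
  choose A' hA' using fun i => dg_surj (π.symm (dg (col A i)))
  choose D hD using fun i => dg_surj (π.symm (dg (del A i)))
  obtain ⟨C, hC⟩ := dg_surj (π.symm (dg A))
  refine ⟨fun c R i => decide (TR (A' i) (Ft c (join R C))),
    fun c => measurable_decode A' C c, ?_⟩
  have h1 : ∀ i, ∀ᶠ R in residual Om, ¬ TR (A' i) (join (D i) R) := by
    intro i
    refine generic_not_TR ?_
    rw [TR_image1 π.symm (hA' i) (hD i)]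
    exact hA i
  have h2 : ∀ᶠ R in residual Om, ∀ i, ¬ TR (A' i) (join (D i) R) :=
    eventually_countable_forall.2 h1
  filter_upwards [h2] with R hR Y hY
  have hRY : dg R = π.symm (dg Y) := dg_symm hY
  have h3 : ∀ i, ¬ TR (col A i) (join Y (del A i)) := by
    intro i h
    have h4 : TR (A' i) (join R (D i)) := TR_image π.symm h (hA' i) hRY (hD i)
    exact hR i (h4.trans (TR_join (TR_right _ _) (TR_left _ _)))
  obtain ⟨c, hc⟩ := coding π.symm h3 hRY hC hA'
  refine ⟨c, ?_⟩
  funext i
  have := hc i
  by_cases hYi : Y i = true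
  · rw [hYi]; simpa using this.1 hYi
  · have h5 : ¬ TR (A' i) (Ft c (join R C)) := fun h => hYi (this.2 h)
    rw [Bool.not_eq_true] at hYi
    rw [hYi]; simpa using h5

/-- Conversely `R` is a Borel function of any representative of `π (dg R)`. -/
theorem borel_inv (π : SetDegree ≃o SetDegree) :
    ∃ H : Code → Om → Om, (∀ c, Measurable (H c)) ∧
      ∀ᶠ R in residual Om, ∀ Z : Om, dg Z = π (dg R) → ∃ c, H c Z = R := by
  classical
  obtain ⟨A, hA⟩ := exists_indep
  choose A' hA' using fun i => dg_surj (π (dg (col A i)))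
  obtain ⟨C, hC⟩ := dg_surj (π (dg A))
  refine ⟨fun c R i => decide (TR (A' i) (Ft c (join R C))),
    fun c => measurable_decode A' C c, ?_⟩
  have h2 : ∀ᶠ R in residual Om, ∀ i, ¬ TR (col A i) (join (del A i) R) :=
    eventually_countable_forall.2 fun i => generic_not_TR (hA i)
  filter_upwards [h2] with R hR Z hZ
  have h3 : ∀ i, ¬ TR (col A i) (join R (del A i)) := by
    intro i h
    exact hR i (h.trans (TR_join (TR_right _ _) (TR_left _ _)))
  obtain ⟨c, hc⟩ := coding π h3 hZ hC hA'
  refine ⟨c, ?_⟩
  funext i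
  have := hc i
  by_cases hYi : R i = true
  · rw [hYi]; simpa using this.1 hYi
  · have h5 : ¬ TR (A' i) (Ft c (join Z C)) := fun h => hYi (this.2 h)
    rw [Bool.not_eq_true] at hYi
    rw [hYi]; simpa using h5

end Crest.Agent.R292
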