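import Crest.Agent.R292.Coding
import Crest.Agent.R292.Cat2

/-!
# R292: the configuration
-/

set_option autoImplicit false

namespace Crest.Agent.R292

open Encodable Topology Set Filter
open Nat.Partrec (Code)
open Crest.LogicCS.Degrees

/-- the affine chart of a cylinder -/
def aff (m : ℕ) (t : Om) (T : Om) : Om := add (tn m t) (shn m T)

theorem aff_apply_add (m : ℕ) (t T : Om) (n : ℕ) : aff m t T (n + m) = T n := by
  simp [aff, add, tn, shn]

theorem aff_low (m : ℕ) (t T : Om) (n : ℕ) (hn : n < m) : aff m t T n = t n := by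
  simp [aff, add, tn, shn, hn]

theorem continuous_aff (m : ℕ) (t : Om) : Continuous (aff m t) := by
  have : aff m t = (fun p : Om × Om => add p.1 p.2) ∘ (fun T => (tn m t, shn m T)) := rfl
  rw [this]
  exact continuous_add.comp (continuous_const.prodMk (continuous_shn m))

theorem aff_openEmbedding (m : ℕ) (t : Om) : IsOpenEmbedding (aff m t) := by
  have hl : Function.LeftInverse (fun (a : Om) (n : ℕ) => a (n + m)) (aff m t) := by
    intro T; funext n; exact aff_apply_add m t T n
  have hcl : Continuous (fun (a : Om) (n : ℕ) => a (n + m)) :=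
    continuous_pi fun n => continuous_apply (n + m)
  have hemb : IsEmbedding (aff m t) := hl.isEmbedding hcl (continuous_aff m t)
  refine ⟨hemb, ?_⟩
  have : range (aff m t) = ⋂ i ∈ Finset.range m, {x : Om | x i = t i} := by
    ext x
    simp only [mem_range, Finset.mem_range, mem_iInter]
    constructor
    · rintro ⟨T, rfl⟩ i hi
      exact aff_low m t T i hi
    · intro h
      refine ⟨fun n => x (n + m), ?_⟩
      funext n
      by_cases hn : n < m
      · rw [aff_low _ _ _ _ hn]; exact (h n hn).symm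
      · obtain ⟨k, rfl⟩ : ∃ k, n = k + m := ⟨n - m, by omega⟩
        rw [aff_apply_add]
  rw [this]
  refine isOpen_biInter_finset (fun i _ => ?_)
  have h : IsOpen ((fun x : Om => x i) ⁻¹' {t i}) :=
    (isOpen_discrete ({t i} : Set Bool)).preimage (continuous_apply i)
  exact h

theorem dg_aff (m : ℕ) (t T : Om) : dg (aff m t T) = dg T := by
  refine dg_eq_of ?_ ?_
  · refine (TR_add _ _).trans (TR_join (TR_tn _ _ _) (TR_shn _ _))
  · have h1 : TR (add (tn m t) (aff m t T)) (aff m t T) :=
      (TR_add _ _).trans (TR_join (TR_tn _ _ _) (TR.refl _))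
    have h2 : add (tn m t) (aff m t T) = shn m T := add_add_cancel _ _
    rw [h2] at h1
    exact (TR_of_shn m T).trans h1

/-- the Borel statement of a choice of indices -/
def Bst (X Xh : Om) (G H : Code → Om → Om) (i : (Fin 6 → Code) × (Fin 7 → Code)) :
    Set (Om × Om) :=
  {p | Rel X Xh (G (i.1 0)) (G (i.1 1)) (G (i.1 2)) (G (i.1 3)) (G (i.1 4)) i.2 p ∧
    H (i.1 5) (G (i.1 1) p.2) = p.2}

theorem measurableSet_Bst (X Xh : Om) {G H : Code → Om → Om} (hG : ∀ c, Measurable (G c))
    (hH : ∀ c, Measurable (H c)) (i : (Fin 6 → Code) × (Fin 7 → Code)) :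
    MeasurableSet (Bst X Xh G H i) := by
  have mf : Measurable (fun p : Om × Om => G (i.1 0) p.1) := (hG _).comp measurable_fst
  have mg : Measurable (fun p : Om × Om => G (i.1 1) p.2) := (hG _).comp measurable_snd
  have m1 : Measurable (fun p : Om × Om => G (i.1 2) (add p.1 p.2)) :=
    (hG _).comp continuous_add.measurable
  have mt : Measurable (fun p : Om × Om => G (i.1 3) (add (sh p.1) p.2)) :=
    (hG _).comp (continuous_add.comp
      ((continuous_sh.comp continuous_fst).prodMk continuous_snd)).measurable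
  have mX : Measurable (fun p : Om × Om => G (i.1 4) (add (cv X p.1) p.2)) :=
    (hG _).comp (continuous_add.comp
      (((continuous_cv X).comp continuous_fst).prodMk continuous_snd)).measurable
  have jn2 : ∀ {u v : Om × Om → Om}, Measurable u → Measurable v →
      Measurable (fun p => join (u p) (v p)) := fun hu hv =>
    measurable_join.comp (hu.prodMk hv)
  have rd : ∀ (c : Code) {u v : Om × Om → Om}, Measurable u → Measurable v →
      MeasurableSet {p | Red c (u p) (v p)} := fun c _ _ hu hv =>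
    (hu.prodMk hv) (measurableSet_Red c)
  have mc : Measurable (fun _ : Om × Om => Xh) := measurable_const
  refine MeasurableSet.inter (MeasurableSet.inter (rd _ (jn2 mf mg) m1)
    (MeasurableSet.inter (rd _ (jn2 m1 mf) mg) (MeasurableSet.inter (rd _ (jn2 m1 mg) mf)
    (MeasurableSet.inter (rd _ (jn2 mf mg) mt) (MeasurableSet.inter (rd _ (jn2 mt mg) mf)
    (MeasurableSet.inter (rd _ (jn2 mc (jn2 mf mg)) mX)
    (rd _ (jn2 mc (jn2 mX mf)) mg))))))) ?_
  exact measurableSet_eq_fun ((hH _).comp mg) measurable_snd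

theorem exists_config (π : SetDegree ≃o SetDegree) (X Xh : Om) (hX : dg Xh = π (dg X)) :
    ∃ (f g s1 st sX : Om → Om) (c : Fin 7 → Code) (Hf : Om → Om),
      Measurable g ∧ (∀ᶠ W in residual Om, Hf (g W) = W) ∧
      (∀ᶠ p in residual (Om × Om), Rel X Xh f g s1 st sX c p) ∧
      EN {T : Om | dg (f T) = π (dg T)} ∧ EN {W : Om | dg (g W) = π (dg W)} := by
  choose rep hrep using fun R : Om => dg_surj (π (dg R))
  obtain ⟨G, hG, hGb⟩ := borel_bound π
  obtain ⟨H, hH, hHb⟩ := borel_inv π
  have hg1 : ∀ᶠ R in residual Om, ∃ c, G c R = rep R := by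
    filter_upwards [hGb] with R hR using hR _ (hrep R)
  have hh1 : ∀ᶠ R in residual Om, ∃ c, H c (rep R) = R := by
    filter_upwards [hHb] with R hR using hR _ (hrep R)
  set Q : (Fin 6 → Code) × (Fin 7 → Code) → Set (Om × Om) := fun i =>
    {p | rep p.1 = G (i.1 0) p.1 ∧ rep p.2 = G (i.1 1) p.2 ∧ p ∈ Bst X Xh G H i} with hQ
  have hcov : ∀ᶠ p in residual (Om × Om), ∃ i, p ∈ Q i := by
    filter_upwards [residual_fst hg1, residual_snd hg1, residual_shear hg1 id continuous_id,
      residual_shear hg1 sh continuous_sh, residual_shear hg1 (cv X) (continuous_cv X),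
      residual_snd hh1] with p h0 h1 h2 h3 h4 h5
    obtain ⟨a0, h0⟩ := h0
    obtain ⟨a1, h1⟩ := h1
    obtain ⟨a2, h2⟩ := h2
    obtain ⟨a3, h3⟩ := h3
    obtain ⟨a4, h4⟩ := h4
    obtain ⟨a5, h5⟩ := h5
    obtain ⟨T, W⟩ := p
    simp only [id] at h0 h1 h2 h3 h4 h5
    obtain ⟨c0, hc0⟩ := Red_of_TR (TR_image π (TR_add T W) (hrep _) (hrep _) (hrep _))
    have t1 : TR W (join (add T W) T) := by
      have := TR_add (add T W) T
      rwa [add_comm (add T W) T, add_add_cancel] at this
    obtain ⟨c1, hc1⟩ := Red_of_TR (TR_image π t1 (hrep _) (hrep _) (hrep _))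
    have t2 : TR T (join (add T W) W) := by
      have := TR_add (add T W) W
      rwa [add_assoc, add_self, add_zero] at this
    obtain ⟨c2, hc2⟩ := Red_of_TR (TR_image π t2 (hrep _) (hrep _) (hrep _))
    have t3 : TR (add (sh T) W) (join T W) :=
      (TR_add _ _).trans (TR_join_mono (TR_sh T) (TR.refl _))
    obtain ⟨c3, hc3⟩ := Red_of_TR (TR_image π t3 (hrep _) (hrep _) (hrep _))
    have t4 : TR T (join (add (sh T) W) W) := by
      have h := TR_add (add (sh T) W) W
      rw [add_assoc, add_self, add_zero] at h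
      exact (TR_ls (sh T)).trans h
    obtain ⟨c4, hc4⟩ := Red_of_TR (TR_image π t4 (hrep _) (hrep _) (hrep _))
    have t5 : TR (add (cv X T) W) (join X (join T W)) := by
      refine (TR_add _ _).trans (TR_join ?_ ?_)
      · exact (TR_cv X T).trans (TR_join_mono (TR.refl _) (TR_left _ _))
      · exact (TR_right T W).trans (TR_right _ _)
    obtain ⟨c5, hc5⟩ := Red_of_TR (TR_image3 π t5 (hrep _) hX (hrep _) (hrep _))
    have t6 : TR W (join X (join (add (cv X T) W) T)) := by
      have h := TR_add (cv X T) (add (cv X T) W)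
      rw [add_add_cancel] at h
      refine h.trans (TR_join ?_ ?_)
      · exact (TR_cv X T).trans (TR_join_mono (TR.refl _) (TR_right _ _))
      · exact (TR_left _ T).trans (TR_right _ _)
    obtain ⟨c6, hc6⟩ := Red_of_TR (TR_image3 π t6 (hrep _) hX (hrep _) (hrep _))
    refine ⟨(![a0, a1, a2, a3, a4, a5], ![c0, c1, c2, c3, c4, c5, c6]), ?_, ?_, ?_, ?_⟩
    · exact h0.symm
    · exact h1.symm
    · show Rel X Xh (G a0) (G a1) (G a2) (G a3) (G a4) ![c0, c1, c2, c3, c4, c5, c6] (T, W)
      unfold Rel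
      simp only [h0, h1, h2, h3, h4]
      exact ⟨hc0, hc1, hc2, hc3, hc4, hc5, hc6⟩
    · show H a5 (G a1 W) = W
      rw [h1, h5]
  -- some choice of indices is nonmeagre
  obtain ⟨i, hi⟩ : ∃ i, ¬ IsMeagre (Q i) := by
    by_contra hno
    push Not at hno
    have hm : IsMeagre (⋃ i, Q i) := isMeagre_iUnion hno
    have hres : (⋃ i, Q i) ∈ residual (Om × Om) := by
      filter_upwards [hcov] with p hp using mem_iUnion.2 hp
    have : (∅ : Set (Om × Om)) ∈ residual (Om × Om) := by
      have := inter_mem hres hm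
      rwa [inter_compl_self] at this
    exact (dense_of_mem_residual this).nonempty.ne_empty rfl
  obtain ⟨U, hUo, hUne, hUQ⟩ := exists_open_EN hi
  obtain ⟨t0, w0, m, hcyl⟩ := exists_cylinder hUo hUne
  set Φ : Om × Om → Om × Om := Prod.map (aff m t0) (aff m w0) with hΦ
  have hΦe : IsOpenEmbedding Φ := (aff_openEmbedding m t0).prodMap (aff_openEmbedding m w0)
  have hΦU : ∀ p, Φ p ∈ U := fun p => hcyl p.1 p.2
  have hBm : IsMeagre (U \ Bst X Xh G H i) :=
    meagre_diff_of_EN (measurableSet_Bst X Xh hG hH i).baireMeasurableSet hUo hUQ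
      (fun p hp => hp.1.2.2)
  have hBres : ∀ᶠ p in residual (Om × Om), Φ p ∈ Bst X Xh G H i := by
    have := hBm.preimage_of_isOpenMap hΦe.continuous hΦe.isOpenMap
    filter_upwards [this] with p hp
    by_contra hcon
    exact hp ⟨hΦU p, hcon⟩
  -- rescaling
  have hrel : ∀ᶠ p in residual (Om × Om), Rel X Xh (fun T => G (i.1 0) (aff m t0 T))
      (fun W => G (i.1 1) (aff m w0 W))
      (fun K => G (i.1 2) (add (add (tn m t0) (tn m w0)) (shn m K)))
      (fun K => G (i.1 3) (add (add (sh (tn m t0)) (tn m w0)) (shn m K)))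
      (fun K => G (i.1 4) (add (add (cv X (tn m t0)) (tn m w0)) (shn m K))) i.2 p := by
    filter_upwards [hBres] with p hp
    obtain ⟨T, W⟩ := p
    have h := hp.1
    have e1 : add (aff m t0 T) (aff m w0 W) =
        add (add (tn m t0) (tn m w0)) (shn m (add T W)) := by
      rw [shn_add]; unfold aff
      funext n; simp only [add]
      cases tn m t0 n <;> cases tn m w0 n <;> cases shn m T n <;> cases shn m W n <;> rfl
    have e2 : add (sh (aff m t0 T)) (aff m w0 W) =
        add (add (sh (tn m t0)) (tn m w0)) (shn m (add (sh T) W)) := by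
      rw [shn_add]; unfold aff
      rw [sh_add, sh_shn]
      funext n; simp only [add]
      cases sh (tn m t0) n <;> cases tn m w0 n <;> cases shn m (sh T) n <;>
        cases shn m W n <;> rfl
    have e3 : add (cv X (aff m t0 T)) (aff m w0 W) =
        add (add (cv X (tn m t0)) (tn m w0)) (shn m (add (cv X T) W)) := by
      rw [shn_add]; unfold aff
      rw [cv_add, cv_shn]
      funext n; simp only [add]
      cases cv X (tn m t0) n <;> cases tn m w0 n <;> cases shn m (cv X T) n <;>
        cases shn m W n <;> rfl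
    simp only [hΦ, Prod.map, Rel, e1, e2, e3] at h
    exact h
  refine ⟨_, _, _, _, _, i.2, fun Z n => H (i.1 5) Z (n + m), ?_, ?_, hrel, ?_, ?_⟩
  · exact (hG _).comp (continuous_aff m w0).measurable
  · have h1 : {p : Om × Om | Φ p ∈ Bst X Xh G H i} ∈ residual (Om × Om) := hBres
    have h2 := kuratowski_ulam h1
    obtain ⟨T, hT⟩ := (dense_of_mem_residual h2).nonempty
    filter_upwards [hT] with W hW
    have h3 : H (i.1 5) (G (i.1 1) (aff m w0 W)) = aff m w0 W := hW.2
    funext n
    show H (i.1 5) (G (i.1 1) (aff m w0 W)) (n + m) = W n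
    rw [h3, aff_apply_add]
  · intro V hV hVne hmeag
    set V' : Set (Om × Om) := Φ '' (V ×ˢ univ) with hV'
    have hV'o : IsOpen V' := hΦe.isOpenMap _ (hV.prod isOpen_univ)
    have hV'ne : V'.Nonempty := by
      obtain ⟨T, hT⟩ := hVne
      exact ⟨Φ (T, T), ⟨(T, T), ⟨hT, mem_univ _⟩, rfl⟩⟩
    have hV'U : V' ⊆ U := by
      rintro _ ⟨q, _, rfl⟩; exact hΦU q
    refine hUQ V' hV'o hV'U hV'ne ?_
    have h1 : IsMeagre ((fun p : Om × Om => p.1) ⁻¹'
        ({T : Om | dg (G (i.1 0) (aff m t0 T)) = π (dg T)} ∩ V)) :=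
      hmeag.preimage_of_isOpenMap continuous_fst isOpenMap_fst
    refine (hΦe.isInducing.isMeagre_image h1).mono ?_
    rintro _ ⟨hq1, ⟨q, hq2, rfl⟩⟩
    refine ⟨q, ⟨?_, hq2.1⟩, rfl⟩
    show dg (G (i.1 0) (aff m t0 q.1)) = π (dg q.1)
    have h3 : rep (aff m t0 q.1) = G (i.1 0) (aff m t0 q.1) := hq1.1
    rw [← h3, hrep, dg_aff]
  · intro V hV hVne hmeag
    set V' : Set (Om × Om) := Φ '' (univ ×ˢ V) with hV'
    have hV'o : IsOpen V' := hΦe.isOpenMap _ (isOpen_univ.prod hV)
    have hV'ne : V'.Nonempty := by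
      obtain ⟨T, hT⟩ := hVne
      exact ⟨Φ (T, T), ⟨(T, T), ⟨mem_univ _, hT⟩, rfl⟩⟩
    have hV'U : V' ⊆ U := by
      rintro _ ⟨q, _, rfl⟩; exact hΦU q
    refine hUQ V' hV'o hV'U hV'ne ?_
    have h1 : IsMeagre ((fun p : Om × Om => p.2) ⁻¹'
        ({T : Om | dg (G (i.1 1) (aff m w0 T)) = π (dg T)} ∩ V)) :=
      hmeag.preimage_of_isOpenMap continuous_snd isOpenMap_snd
    refine (hΦe.isInducing.isMeagre_image h1).mono ?_
    rintro _ ⟨hq1, ⟨q, hq2, rfl⟩⟩
    refine ⟨q, ⟨?_, hq2.2⟩, rfl⟩
    show dg (G (i.1 1) (aff m w0 q.2)) = π (dg q.2)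
    have h3 : rep (aff m w0 q.2) = G (i.1 1) (aff m w0 q.2) := hq1.2.1
    rw [← h3, hrep, dg_aff]

end Crest.Agent.R292
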