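import Crest.Agent.R292.Defs

/-!
# R292: separation lemma (compactness of `{δ | δ 0 = true}`)
-/

set_option autoImplicit false

namespace Crest.Agent.R292

open Topology Set Filter

/-- translation by `δ` as a homeomorphism -/
def addHomeo (δ : Om) : Om ≃ₜ Om where
  toFun := fun W => add W δ
  invFun := fun W => add W δ
  left_inv := fun W => by
    show add (add W δ) δ = W
    rw [add_assoc, add_self, add_zero]
  right_inv := fun W => by
    show add (add W δ) δ = W
    rw [add_assoc, add_self, add_zero]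
  continuous_toFun := by
    refine continuous_pi fun n => ?_
    show Continuous fun W : Om => xor (W n) (δ n)
    exact (continuous_of_discreteTopology (f := fun b : Bool => xor b (δ n))).comp
      (continuous_apply n)
  continuous_invFun := by
    refine continuous_pi fun n => ?_
    show Continuous fun W : Om => xor (W n) (δ n)
    exact (continuous_of_discreteTopology (f := fun b : Bool => xor b (δ n))).comp
      (continuous_apply n)

theorem exists_sep (g Hf : Om → Om) (C : Set Om) (hC : C ∈ residual Om)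
    (hcont : ∀ x ∈ C, ∀ n, ∃ M, ∀ y ∈ C, (∀ i < M, y i = x i) → g y n = g x n)
    (hinj : ∀ W ∈ C, Hf (g W) = W) (δ : Om) (hδ : δ 0 = true) :
    ∃ (W : Om) (p M : ℕ), ∀ y ∈ C, ∀ z ∈ C, (∀ i < M, y i = W i) →
      (∀ i < M, z i = xor (W i) (δ i)) → g y p ≠ g z p := by
  have h1 : (addHomeo δ) ⁻¹' C ∈ residual Om := by
    have := (addHomeo δ).residual_map_eq
    have h2 : C ∈ (residual Om).map (addHomeo δ) := by rw [this]; exact hC
    exact h2
  have h3 : (C ∩ (addHomeo δ) ⁻¹' C) ∈ residual Om := inter_mem hC h1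
  obtain ⟨W, hW1, hW2⟩ := (dense_of_mem_residual h3).nonempty
  have hW2' : add W δ ∈ C := hW2
  have hne : W ≠ add W δ := by
    intro h
    have := congrFun h 0
    simp [add, hδ] at this
  have hgne : g W ≠ g (add W δ) := by
    intro h
    apply hne
    have e1 := hinj W hW1
    rw [h, hinj _ hW2'] at e1
    exact e1.symm
  obtain ⟨p, hp⟩ := Function.ne_iff.1 hgne
  obtain ⟨M1, hM1⟩ := hcont W hW1 p
  obtain ⟨M2, hM2⟩ := hcont _ hW2' p
  refine ⟨W, p, max M1 M2, fun y hy z hz h1 h2 => ?_⟩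
  rw [hM1 y hy (fun i hi => h1 i (lt_of_lt_of_le hi (le_max_left _ _))),
    hM2 z hz (fun i hi => h2 i (lt_of_lt_of_le hi (le_max_right _ _)))]
  exact hp

/-- Separation: from continuity and injectivity of `g` on a comeager set, and compactness of
`{δ | δ 0 = true}`. -/
theorem separation (g Hf : Om → Om) (C : Set Om) (hC : C ∈ residual Om)
    (hcont : ∀ x ∈ C, ∀ n, ∃ M, ∀ y ∈ C, (∀ i < M, y i = x i) → g y n = g x n)
    (hinj : ∀ W ∈ C, Hf (g W) = W) :
    ∃ (M S : ℕ) (V : ℕ → Om) (p : ℕ → ℕ), 0 < M ∧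
      ∀ δ : Om, δ 0 = true → ∃ s < S, ∀ y ∈ C, ∀ z ∈ C, (∀ i < M, y i = V s i) →
        (∀ i < M, z i = xor (V s i) (δ i)) → g y (p s) ≠ g z (p s) := by
  classical
  choose! W p M h using fun δ : Om => exists_sep g Hf C hC hcont hinj δ
  set K : Set Om := {δ | δ 0 = true} with hK
  have hKc : IsCompact K := by
    have : IsClosed K := by
      have : K = (fun δ : Om => δ 0) ⁻¹' {true} := by ext; simp [hK]
      rw [this]
      exact (isClosed_discrete _).preimage (continuous_apply 0)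
    exact this.isCompact
  have hopen : ∀ δ ∈ K, {δ' : Om | ∀ i < M δ, δ' i = δ i} ∈ 𝓝 δ := by
    intro δ _
    have hfin : {δ' : Om | ∀ i < M δ, δ' i = δ i} =
        ⋂ i ∈ Finset.range (M δ), (fun x : Om => x i) ⁻¹' {δ i} := by
      ext x; simp
    have ho : IsOpen {δ' : Om | ∀ i < M δ, δ' i = δ i} := by
      rw [hfin]
      exact isOpen_biInter_finset fun i _ =>
        (isOpen_discrete _).preimage (continuous_apply i)
    exact ho.mem_nhds (fun i _ => rfl)
  obtain ⟨t, ht⟩ := hKc.elim_nhds_subcover' (fun δ _ => {δ' : Om | ∀ i < M δ, δ' i = δ i})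
    (fun δ hδ => hopen δ hδ)
  -- enumerate the finite set `t`
  obtain ⟨l, hl⟩ : ∃ l : List Om, ∀ δ : Om, (∃ x ∈ t, (x : Om) = δ) ↔ δ ∈ l :=
    ⟨(t.image Subtype.val).toList, fun δ => by simp⟩
  have hlK : ∀ δ ∈ l, δ 0 = true := by
    intro δ hδ
    obtain ⟨x, _, rfl⟩ := (hl δ).2 hδ
    exact x.2
  set Mm : ℕ := (l.map M).foldr max 0 + 1 with hMm
  have hMle : ∀ δ ∈ l, M δ < Mm := by
    intro δ hδ
    have h0 : M δ ≤ (l.map M).foldr max 0 := List.le_max_of_le' 0 (List.mem_map_of_mem hδ) le_rfl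
    omega
  refine ⟨Mm, l.length, fun s => W (l.getD s (cst false)), fun s => p (l.getD s (cst false)),
    by omega, fun δ hδ => ?_⟩
  have hδK : δ ∈ K := hδ
  have hmem := ht hδK
  simp only [mem_iUnion, mem_ofPred_eq] at hmem
  obtain ⟨x, hxt, hx⟩ := hmem
  have hxl : (x : Om) ∈ l := (hl _).1 ⟨x, hxt, rfl⟩
  obtain ⟨s, hs, hsx⟩ := List.mem_iff_getElem.1 hxl
  have hget : l.getD s (cst false) = (x : Om) := by
    rw [List.getD_eq_getElem _ _ hs, hsx]
  refine ⟨s, hs, fun y hy z hz h1 h2 => ?_⟩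
  simp only [hget] at h1 h2 ⊢
  refine h x x.2 y hy z hz (fun i hi => h1 i (hi.trans (hMle _ hxl))) (fun i hi => ?_)
  rw [h2 i (hi.trans (hMle _ hxl)), hx i hi]

end Crest.Agent.R292
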