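import Crest.Agent.R292.Generic
import Crest.Agent.R292.Separation
import Crest.Agent.R292.Cat2

/-!
# R292: decoding
-/

set_option autoImplicit false

namespace Crest.Agent.R292

open Encodable Topology Set Filter
open Nat.Partrec (Code)

/-- cylinder -/
def cyl (M : ℕ) (a : Om) : Set Om := {x | ∀ i < M, x i = a i}

theorem isOpen_cyl (M : ℕ) (a : Om) : IsOpen (cyl M a) := by
  have : cyl M a = ⋂ i ∈ Finset.range M, {x : Om | x i = a i} := by
    ext x; simp [cyl]
  rw [this]
  refine isOpen_biInter_finset (fun i _ => ?_)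
  have h : IsOpen ((fun x : Om => x i) ⁻¹' {a i}) :=
    (isOpen_discrete ({a i} : Set Bool)).preimage (continuous_apply i)
  exact h

theorem mem_cyl_self (M : ℕ) (a : Om) : a ∈ cyl M a := fun _ _ => rfl

/-- finite functions of uniformly computed bits -/
theorem UR_fin {I : Type*} {b : I → Om} (n : ℕ) :
    ∀ (x : Fin n → I → Bool), (∀ r, UR b (fun i => cst (x r i))) →
      ∀ D : (Fin n → Bool) → Bool, UR b (fun i => cst (D (fun r => x r i))) := by
  induction n with
  | zero =>
    intro x _ D
    have : (fun i : I => cst (D (fun r => x r i))) = fun _ => cst (D Fin.elim0) := by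
      funext i; congr 1; congr 1; funext r; exact r.elim0
    rw [this]; exact UR.const b _
  | succ n ih =>
    intro x hx D
    have h1 := ih (fun r => x r.succ) (fun r => hx r.succ) (fun y => D (Fin.cons true y))
    have h0 := ih (fun r => x r.succ) (fun r => hx r.succ) (fun y => D (Fin.cons false y))
    have h := UR.cond (hx 0) h1 h0
    have e : (fun i : I => cst (D (fun r => x r i))) =
        fun i => if x 0 i = true then cst (D (Fin.cons true (fun r => x r.succ i)))
          else cst (D (Fin.cons false (fun r => x r.succ i))) := by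
      funext i
      have e1 : (fun r => x r i) = Fin.cons (x 0 i) (fun r => x r.succ i) := by
        funext r; refine Fin.cases ?_ (fun r => ?_) r <;> simp
      cases hxi : x 0 i <;> simp [e1, hxi]
    rw [e]; exact h

/-- The deterministic part of the decoding. -/
theorem decode_aux (X Xh : Om) (f g s1 st sX : Om → Om) (c : Fin 7 → Code)
    (C : Set Om) (M S : ℕ) (V : ℕ → Om) (p : ℕ → ℕ)
    (hsep : ∀ δ : Om, δ 0 = true → ∃ s < S, ∀ y ∈ C, ∀ z ∈ C, (∀ i < M, y i = V s i) →
        (∀ i < M, z i = xor (V s i) (δ i)) → g y (p s) ≠ g z (p s))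
    (Nb : ℕ) (e : Fin S × (Fin M → Bool) ≃ Fin Nb)
    (Y γ : Om) (W : ℕ → Om)
    (hγ : ∀ i < M, γ i = decide (i = 0))
    (hW : ∀ (s : Fin S) (a : Fin M → Bool), ∀ i : Fin M,
      W (1 + (e (s, a) : ℕ)) i = xor (V s i) (a i))
    (P1 : ∀ k j, Rel X Xh f g s1 st sX c (add Y (cv (ls^[k] X) γ), W j))
    (P2 : ∀ k j, Rel X Xh f g s1 st sX c (add Y (sc (X k) γ),
      add (W j) (sh (cv (ls^[k + 1] X) γ))))
    (P2' : ∀ k j, Rel X Xh f g s1 st sX c (Y, add (W j) (sh (cv (ls^[k + 1] X) γ))))
    (P3 : ∀ k j, Rel X Xh f g s1 st sX c (Y, add (W j) (cv (ls^[k] X) γ)))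
    (P3' : ∀ k j, add (W j) (cv (ls^[k] X) γ) ∈ C)
    (P4 : ∀ j, Rel X Xh f g s1 st sX c (add Y γ, W j))
    (O : Om) (hOX : UR (fun _ : ℕ => O) (fun _ => Xh)) (hO0 : UR (fun _ : ℕ => O) (fun _ => f Y))
    (hO1 : UR (fun _ : ℕ => O) (fun _ => f (add Y γ)))
    (hOW : ∀ j < Nb + 1, UR (fun _ : ℕ => O) (fun _ => g (W j))) :
    TR X O := by
  -- bits of the scalars
  have hκ : ∀ k, (ls^[k] X) 0 = X k := by
    have : ∀ k n, (ls^[k] X) n = X (n + k) := by
      intro k
      induction k with
      | zero => intro n; rfl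
      | succ k ih =>
        intro n
        rw [Function.iterate_succ', Function.comp]
        show (ls^[k] X) (n + 1) = _
        rw [ih]; congr 1; ring
    intro k; rw [this]; simp
  set Z : ℕ → Om := fun k => f (add Y (cv (ls^[k] X) γ)) with hZ
  set b : ℕ → Om := fun k => join O (Z k) with hb
  have bO : UR b (fun _ => O) := UR.left _ _
  have bZ : UR b Z := UR.right _ _
  have bX : UR b (fun _ => Xh) := bO.comp hOX
  have b0 : UR b (fun _ => f Y) := bO.comp hO0
  have b1 : UR b (fun _ => f (add Y γ)) := bO.comp hO1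
  have bW : ∀ j < Nb + 1, UR b (fun _ => g (W j)) := fun j hj => bO.comp (hOW j hj)
  -- s1 ((Y + κ γ) + W j)
  have bA : ∀ j < Nb + 1, UR b (fun k => s1 (add (add Y (cv (ls^[k] X) γ)) (W j))) := by
    intro j hj
    exact (bZ.join (bW j hj)).comp (UR.of_Red (fun k => (P1 k j).1))
  -- g (W j + κ γ)
  have bG : ∀ j < Nb + 1, UR b (fun k => g (add (W j) (cv (ls^[k] X) γ))) := by
    intro j hj
    refine ((bA j hj).join b0).comp ⟨c 1, fun k => ?_⟩
    have := (P3 k j).2.1
    have e1 : add (add Y (cv (ls^[k] X) γ)) (W j) = add Y (add (W j) (cv (ls^[k] X) γ)) := by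
      rw [add_assoc, add_comm (W j)]
    beta_reduce
    rw [e1]; exact this
  -- the bit X k
  have hx : UR b (fun k => cst (X k)) := by
    set β : ℕ → Fin Nb → Bool := fun k j =>
      g (add (W (1 + (j : ℕ))) (cv (ls^[k] X) γ)) (p ((e.symm j).1 : ℕ)) with hβ
    have hbβ : ∀ j, UR b (fun k => cst (β k j)) := by
      intro j
      exact (bG (1 + (j : ℕ)) (by omega)).comp (UR.bit _ _)
    have hdet : ∀ k k', β k = β k' → X k = X k' := by
      intro k k' hkk
      by_contra hne
      set δ : Om := add (ls^[k] X) (ls^[k'] X) with hδ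
      have hδ0 : δ 0 = true := by
        show xor ((ls^[k] X) 0) ((ls^[k'] X) 0) = true
        rw [hκ, hκ]
        revert hne
        cases X k <;> cases X k' <;> simp
      obtain ⟨s, hs, hs2⟩ := hsep δ hδ0
      set a : Fin M → Bool := fun i => (ls^[k] X) i with ha
      have hlow1 := cv_low (M := M) (γ := γ) hγ (ls^[k] X)
      have hlow2 := cv_low (M := M) (γ := γ) hγ (ls^[k'] X)
      have hWj := hW ⟨s, hs⟩ a
      have key := hs2 _ (P3' k (1 + (e (⟨s, hs⟩, a) : ℕ))) _ (P3' k' (1 + (e (⟨s, hs⟩, a) : ℕ)))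
        (by
          intro i hi
          show xor (W _ i) (cv (ls^[k] X) γ i) = V s i
          rw [hlow1 i hi]
          have := hWj ⟨i, hi⟩
          simp only [] at this
          rw [this]
          simp [ha])
        (by
          intro i hi
          show xor (W _ i) (cv (ls^[k'] X) γ i) = xor (V s i) (δ i)
          rw [hlow2 i hi]
          have := hWj ⟨i, hi⟩
          simp only [] at this
          rw [this]
          simp [ha, hδ, add])
      apply key
      have := congrFun hkk (e (⟨s, hs⟩, a))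
      simpa [hβ] using this
    classical
    set D : (Fin Nb → Bool) → Bool := fun y => if h : ∃ k, β k = y then X h.choose else false
      with hD
    have hDβ : ∀ k, D (β k) = X k := by
      intro k
      have h : ∃ k', β k' = β k := ⟨k, rfl⟩
      simp only [hD, h, dif_pos]
      exact hdet _ _ h.choose_spec
    have := UR_fin Nb (fun j k => β k j) hbβ D
    have e2 : (fun k => cst (D (fun j => β k j))) = fun k => cst (X k) := by
      funext k; rw [show (fun j => β k j) = β k from rfl, hDβ]
    rw [e2] at this; exact this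
  -- f (Y + X(k) γ)
  have bY : UR b (fun k => f (add Y (sc (X k) γ))) := by
    have := UR.cond hx b1 b0
    have e3 : (fun k => f (add Y (sc (X k) γ))) =
        fun k => if X k = true then f (add Y γ) else f Y := by
      funext k
      cases hk : X k with
      | false =>
        have : sc false γ = cst false := by funext n; simp [sc, cst]
        simp [this, add_zero]
      | true =>
        have : sc true γ = γ := by funext n; simp [sc]
        simp [this]
    rw [e3]; exact this
  -- g (W 0 + t κ' γ)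
  have hstep : ∀ k, add (add Y (cv (ls^[k] X) γ)) (W 0) =
      add (add Y (sc (X k) γ)) (add (W 0) (sh (cv (ls^[k + 1] X) γ))) := by
    intro k
    rw [cv_eq (ls^[k] X) γ, hκ, ← Function.iterate_succ_apply' ls k X]
    funext n
    simp only [add]
    cases Y n <;> cases (sc (X k) γ n) <;> cases (W 0 n) <;>
      cases (sh (cv (ls^[k + 1] X) γ) n) <;> rfl
  have bG2 : UR b (fun k => g (add (W 0) (sh (cv (ls^[k + 1] X) γ)))) := by
    refine ((bA 0 (by omega)).join bY).comp ⟨c 1, fun k => ?_⟩
    have := (P2 k 0).2.1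
    beta_reduce
    rw [hstep k]; exact this
  have bS : UR b (fun k => st (add (sh Y) (add (W 0) (sh (cv (ls^[k + 1] X) γ))))) :=
    (b0.join bG2).comp ⟨c 3, fun k => (P2' k 0).2.2.2.1⟩
  have hs : UR b (fun k => Z (k + 1)) := by
    refine (bS.join (bW 0 (by omega))).comp ⟨c 4, fun k => ?_⟩
    have := (P1 (k + 1) 0).2.2.2.2.1
    have e4 : add (sh Y) (add (W 0) (sh (cv (ls^[k + 1] X) γ))) =
        add (sh (add Y (cv (ls^[k + 1] X) γ))) (W 0) := by
      rw [sh_add]
      funext n
      simp only [add]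
      cases (sh Y n) <;> cases (W 0 n) <;> cases (sh (cv (ls^[k + 1] X) γ) n) <;> rfl
    beta_reduce
    rw [e4]; exact this
  -- the start
  have hZ0 : UR (fun _ : ℕ => O) (fun _ => Z 0) := by
    have o0 := hO0
    have oW := hOW 0 (by omega)
    have q1 : UR (fun _ : ℕ => O) (fun _ => sX (add (cv X (add Y γ)) (W 0))) :=
      (hOX.join (hO1.join oW)).comp ⟨c 5, fun _ => (P4 0).2.2.2.2.2.1⟩
    have q2 : UR (fun _ : ℕ => O) (fun _ => g (add (W 0) (cv X γ))) := by
      refine (hOX.join (q1.join o0)).comp ⟨c 6, fun _ => ?_⟩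
      have := (P3 0 0).2.2.2.2.2.2
      have e5 : add (cv X (add Y γ)) (W 0) = add (cv X Y) (add (W 0) (cv X γ)) := by
        rw [cv_add, add_assoc, add_comm (cv X γ)]
      beta_reduce
      rw [e5]; exact this
    have q3 : UR (fun _ : ℕ => O) (fun _ => s1 (add Y (add (W 0) (cv X γ)))) :=
      (o0.join q2).comp ⟨c 0, fun _ => (P3 0 0).1⟩
    refine (q3.join oW).comp ⟨c 2, fun _ => ?_⟩
    have := (P1 0 0).2.2.1
    have e6 : add Y (add (W 0) (cv X γ)) = add (add Y (cv X γ)) (W 0) := by
      rw [add_assoc, add_comm (W 0)]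
    beta_reduce
    rw [e6]; exact this
  obtain ⟨cz, hcz⟩ := hZ0
  obtain ⟨cf, hcf⟩ := Red_iter hs hx
  have t1 : TR (Z 0) O := TR_of_Red (hcz 0)
  exact (TR_of_Red hcf).trans (TR_join (TR.refl _) t1)

/-- The decoding theorem. -/
theorem decode (X Xh : Om) (f g s1 st sX Hf : Om → Om) (c : Fin 7 → Code) (hg : Measurable g)
    (hinj : ∀ᶠ W in residual Om, Hf (g W) = W)
    (hrel : ∀ᶠ p in residual (Om × Om), Rel X Xh f g s1 st sX c p) :
    ∃ (N : ℕ) (U : ℕ → Set Om), (∀ i, IsOpen (U i) ∧ (U i).Nonempty) ∧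
      ∀ᶠ w in residual (ℕ → Om), (∀ i < N + 2, w i ∈ U i) →
        TR X (join Xh (jn (N + 2) (fun i => if i < 2 then f (w i) else g (w i)))) := by
  obtain ⟨C0, hC0, hcont⟩ := measurable_cont g hg
  set C : Set Om := C0 ∩ {W | Hf (g W) = W} with hCdef
  have hC : C ∈ residual Om := inter_mem hC0 hinj
  obtain ⟨M, S, V, p, hM, hsep⟩ := separation g Hf C hC
    (fun x hx n => by
      obtain ⟨M, hM⟩ := hcont x hx.1 n
      exact ⟨M, fun y hy => hM y hy.1⟩)
    (fun W hW => hW.2)
  set Nb := Fintype.card (Fin S × (Fin M → Bool)) with hNb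
  let e : Fin S × (Fin M → Bool) ≃ Fin Nb := Fintype.equivFin _
  let a : ℕ → Om := fun i =>
    if i = 0 then cst false
    else if i = 1 then (fun n => decide (n = 0))
    else if h : 3 ≤ i ∧ i - 3 < Nb then
      (fun n => xor (V (e.symm ⟨i - 3, h.2⟩).1 n)
        (if hn : n < M then (e.symm ⟨i - 3, h.2⟩).2 ⟨n, hn⟩ else false))
    else cst false
  refine ⟨Nb + 1, fun i => cyl M (a i), fun i => ⟨isOpen_cyl _ _, ⟨a i, mem_cyl_self _ _⟩⟩, ?_⟩
  refine residual_coord ?_
  -- genericity
  have hrel' : ∀ᶠ q in residual (Om × Om), Rel X Xh f g s1 st sX c q ∧ q.2 ∈ C :=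
    hrel.and (residual_snd hC)
  have pull : ∀ (c1 c2 : Om → Om), Continuous c1 → Continuous c2 → ∀ᶠ v in residual (ℕ → Om),
      ∀ j, Rel X Xh f g s1 st sX c (add (v 0) (c1 (v 1)), add (v (j + 2)) (c2 (v 1))) ∧
        add (v (j + 2)) (c2 (v 1)) ∈ C := by
    intro c1 c2 h1 h2
    rw [eventually_countable_forall]
    intro j
    obtain ⟨hc, ho⟩ := open_pair c1 c2 h1 h2 (j + 2) (by omega)
    exact (tendsto_residual_of_isOpenMap hc ho).eventually hrel'
  have h1 : ∀ᶠ v in residual (ℕ → Om), ∀ k j,
      Rel X Xh f g s1 st sX c (add (v 0) (cv (ls^[k] X) (v 1)), add (v (j + 2)) (cst false)) := by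
    rw [eventually_countable_forall]
    intro k
    filter_upwards [pull (cv (ls^[k] X)) (fun _ => cst false) (continuous_cv _)
      continuous_const] with v hv j using (hv j).1
  have h2 : ∀ᶠ v in residual (ℕ → Om), ∀ k j,
      Rel X Xh f g s1 st sX c (add (v 0) (sc (X k) (v 1)),
        add (v (j + 2)) (sh (cv (ls^[k + 1] X) (v 1)))) := by
    rw [eventually_countable_forall]
    intro k
    filter_upwards [pull (sc (X k)) (fun x => sh (cv (ls^[k + 1] X) x)) (continuous_sc _)
      (continuous_sh.comp (continuous_cv _))] with v hv j using (hv j).1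
  have h2' : ∀ᶠ v in residual (ℕ → Om), ∀ k j,
      Rel X Xh f g s1 st sX c (add (v 0) (cst false),
        add (v (j + 2)) (sh (cv (ls^[k + 1] X) (v 1)))) := by
    rw [eventually_countable_forall]
    intro k
    filter_upwards [pull (fun _ => cst false) (fun x => sh (cv (ls^[k + 1] X) x))
      continuous_const (continuous_sh.comp (continuous_cv _))] with v hv j using (hv j).1
  have h3 : ∀ᶠ v in residual (ℕ → Om), ∀ k j,
      Rel X Xh f g s1 st sX c (add (v 0) (cst false),
        add (v (j + 2)) (cv (ls^[k] X) (v 1))) ∧ add (v (j + 2)) (cv (ls^[k] X) (v 1)) ∈ C := by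
    rw [eventually_countable_forall]
    intro k
    exact pull (fun _ => cst false) (cv (ls^[k] X)) continuous_const (continuous_cv _)
  have h4 : ∀ᶠ v in residual (ℕ → Om), ∀ j,
      Rel X Xh f g s1 st sX c (add (v 0) (v 1), add (v (j + 2)) (cst false)) := by
    filter_upwards [pull id (fun _ => cst false) continuous_id continuous_const] with v hv j
      using (hv j).1
  filter_upwards [h1, h2, h2', h3, h4] with v g1 g2 g2' g3 g4 hU
  simp only [add_zero] at g1 g2' g3 g4
  -- abbreviations
  have hw0 := hU 0 (by omega)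
  have hw1 := hU 1 (by omega)
  simp only [show ((0 : ℕ) = 1) = False by simp, if_false, if_true, cyl, mem_ofPred_eq, a] at hw0 hw1
  refine decode_aux X Xh f g s1 st sX c C M S V p hsep Nb e (v 0) (v 1) (fun j => v (j + 2))
    ?_ ?_ g1 g2 g2' (fun k j => (g3 k j).1) (fun k j => (g3 k j).2) g4 _ ?_ ?_ ?_ ?_
  · intro i hi
    have e0 := hw0 i hi
    have e1 := hw1 i hi
    simp only [add, one_ne_zero, if_false] at e1
    rw [e0] at e1
    simpa [cst] using e1
  · intro s aa i
    have hlt : (e (s, aa) : ℕ) < Nb := (e (s, aa)).2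
    have hh := hU (1 + (e (s, aa) : ℕ) + 2) (by omega)
    have n1 : ¬ (1 + (e (s, aa) : ℕ) + 2 = 1) := by omega
    have n0 : ¬ (1 + (e (s, aa) : ℕ) + 2 = 0) := by omega
    have n3 : 3 ≤ 1 + (e (s, aa) : ℕ) + 2 ∧ 1 + (e (s, aa) : ℕ) + 2 - 3 < Nb := by omega
    have n4 : 1 + (e (s, aa) : ℕ) + 2 - 3 = (e (s, aa) : ℕ) := by omega
    simp only [n1, if_false, cyl, mem_ofPred_eq, a, n0, dif_pos n3] at hh
    have := hh i i.2
    rw [this]
    have e7 : (⟨1 + (e (s, aa) : ℕ) + 2 - 3, n3.2⟩ : Fin Nb) = e (s, aa) := by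
      ext; simp [n4]
    rw [e7]
    simp
  · exact UR.left (fun _ : ℕ => Xh) _
  · refine (UR.right _ _).comp ?_
    have := UR_jn (N := Nb + 1 + 2) (i := 0) (I := ℕ) (B := fun i => if i < 2 then
      f (if i = 1 then add (v 0) (v 1) else v i) else
      g (if i = 1 then add (v 0) (v 1) else v i)) (by omega)
    simpa using this
  · refine (UR.right _ _).comp ?_
    have := UR_jn (N := Nb + 1 + 2) (i := 1) (I := ℕ) (B := fun i => if i < 2 then
      f (if i = 1 then add (v 0) (v 1) else v i) else
      g (if i = 1 then add (v 0) (v 1) else v i)) (by omega)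
    simpa using this
  · intro j hj
    refine (UR.right _ _).comp ?_
    have := UR_jn (N := Nb + 1 + 2) (i := j + 2) (I := ℕ) (B := fun i => if i < 2 then
      f (if i = 1 then add (v 0) (v 1) else v i) else
      g (if i = 1 then add (v 0) (v 1) else v i)) (by omega)
    simpa using this

end Crest.Agent.R292
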