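import Crest.Agent.R292.Config
import Crest.Agent.R292.Decode

/-!
# R292: rigidity of the Turing degrees
-/

set_option autoImplicit false

namespace Crest.Agent.R292

open Encodable Topology Set Filter
open Nat.Partrec (Code)
open Crest.LogicCS.Degrees

/-- Every automorphism of the degrees is increasing. -/
theorem symm_le (π : SetDegree ≃o SetDegree) (x : SetDegree) : π.symm x ≤ x := by
  obtain ⟨X, hX⟩ := dg_surj x
  obtain ⟨Xh, hXh⟩ := dg_surj (π x)
  obtain ⟨Q, hQ⟩ := dg_surj (π.symm x)
  rw [← hX] at hXh hQ ⊢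
  by_contra hcon
  rw [← hQ, dg_le_iff] at hcon
  obtain ⟨f, g, s1, st, sX, c, Hf, hg, hinj, hrel, hENf, hENg⟩ := exists_config π X Xh hXh
  obtain ⟨N, U, hU, hdec⟩ := decode X Xh f g s1 st sX Hf c hg hinj hrel
  have hgen : ∀ᶠ w in residual (ℕ → Om), ¬ TR Q (join X (flat w)) :=
    residual_flat (generic_not_TR hcon)
  obtain ⟨w, ⟨hw1, hw2⟩, hw3⟩ := exists_mem_of_EN
    (fun i => if i < 2 then {T : Om | dg (f T) = π (dg T)} else {W : Om | dg (g W) = π (dg W)})
    (fun i => by by_cases hi : i < 2 <;> simp [hi, hENf, hENg]) U hU _ (hdec.and hgen) (N + 2)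
  obtain ⟨P, hP⟩ := dg_surj (π (dg (flat w)))
  have hB : ∀ i < N + 2, TR (if i < 2 then f (w i) else g (w i)) P := by
    intro i hi
    have h1 : dg (if i < 2 then f (w i) else g (w i)) = π (dg (w i)) := by
      have := (hw3 i hi).1
      by_cases h : i < 2
      · simpa [h] using this
      · simpa [h] using this
    refine (TR_image1 π h1 hP).2 ?_
    have := TR_col (flat w) i
    rwa [col_flat] at this
  have hJ := TR_jn hB
  have h2 : TR X (join Xh P) :=
    (hw1 (fun i hi => (hw3 i hi).2)).trans (TR_join_mono (TR.refl _) hJ)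
  exact hw2 (TR_image π.symm h2 hQ (dg_symm hXh) (dg_symm hP))

theorem rigid (π : SetDegree ≃o SetDegree) : π = OrderIso.refl SetDegree := by
  ext x
  apply congrArg
  refine le_antisymm ?_ ?_
  · have := symm_le π.symm x
    simpa using this
  · have := symm_le π x
    have h2 := (π.le_iff_le).2 this
    simpa using h2

end Crest.Agent.R292
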