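import Crest.Agent.R292.Alg
import Crest.Agent.R292.Cat2

/-!
# R292: genericity lemmas and measurability of the functionals
-/

set_option autoImplicit false

namespace Crest.Agent.R292

open Encodable Topology Set Filter
open Nat.Partrec (Code)

/-- `{b | Tr b D}` is open (clopen). -/
theorem isOpen_Tr (D : Facts) : IsOpen {b : Om | Tr b D} := by
  induction D with
  | nil =>
    have : {b : Om | Tr b []} = Set.univ := by
      ext b; simp [Tr]
    rw [this]; exact isOpen_univ
  | cons f D ih =>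
    have : {b : Om | Tr b (f :: D)} = {b : Om | b f.1 = f.2} ∩ {b : Om | Tr b D} := by
      ext b; simp [Tr]
    rw [this]
    refine IsOpen.inter ?_ ih
    have hc : Continuous (fun b : Om => b f.1) := continuous_apply f.1
    exact (isOpen_discrete ({f.2} : Set Bool)).preimage hc

theorem isOpen_exHit (c : Code) (n : ℕ) (v : Bool) :
    IsOpen {b : Om | ∃ D, Tr b D ∧ Hit c D n v} := by
  have : {b : Om | ∃ D, Tr b D ∧ Hit c D n v} =
      ⋃ D : Facts, ⋃ _ : Hit c D n v, {b : Om | Tr b D} := by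
    ext b; simp [and_comm]
  rw [this]
  exact isOpen_iUnion fun D => isOpen_iUnion fun _ => isOpen_Tr D

theorem measurable_Ft (c : Code) : Measurable (Ft c) := by
  refine measurable_pi_iff.2 fun n => ?_
  refine measurable_to_bool ?_
  have : (fun b => Ft c b n) ⁻¹' {true} = {b : Om | ∃ D, Tr b D ∧ Hit c D n true} := by
    ext b; simp [Ft]
  rw [this]
  exact (isOpen_exHit c n true).measurableSet

theorem measurableSet_Red (c : Code) : MeasurableSet {p : Om × Om | Red c p.1 p.2} := by
  have : {p : Om × Om | Red c p.1 p.2} =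
      ⋂ n : ℕ, ⋂ v : Bool, {p : Om × Om | p.2 n = v ↔ ∃ D, Tr p.1 D ∧ Hit c D n v} := by
    ext p; simp [Red]
  rw [this]
  refine MeasurableSet.iInter fun n => MeasurableSet.iInter fun v => ?_
  have h1 : MeasurableSet {p : Om × Om | p.2 n = v} := by
    have : Measurable (fun p : Om × Om => p.2 n) := (measurable_pi_apply n).comp measurable_snd
    exact this (measurableSet_singleton v)
  have h2 : MeasurableSet {p : Om × Om | ∃ D, Tr p.1 D ∧ Hit c D n v} :=
    measurable_fst (isOpen_exHit c n v).measurableSet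
  have : {p : Om × Om | p.2 n = v ↔ ∃ D, Tr p.1 D ∧ Hit c D n v} =
      ({p : Om × Om | p.2 n = v} ∩ {p : Om × Om | ∃ D, Tr p.1 D ∧ Hit c D n v}) ∪
      ({p : Om × Om | p.2 n = v}ᶜ ∩ {p : Om × Om | ∃ D, Tr p.1 D ∧ Hit c D n v}ᶜ) := by
    ext p
    exact iff_iff_and_or_not_and_not
  rw [this]
  exact (h1.inter h2).union (h1.compl.inter h2.compl)

theorem measurableSet_TR (Q : Om) : MeasurableSet {Z : Om | TR Q Z} := by
  have : {Z : Om | TR Q Z} = ⋃ c : Code, {Z : Om | Red c Z Q} := by
    ext Z; simp [TR_iff_Red]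
  rw [this]
  refine MeasurableSet.iUnion fun c => ?_
  have hm : Measurable (fun Z : Om => (Z, Q)) := measurable_id.prodMk measurable_const
  exact hm (measurableSet_Red c)

theorem measurable_join : Measurable (fun p : Om × Om => join p.1 p.2) := by
  refine measurable_pi_iff.2 fun n => ?_
  by_cases h : n % 2 = 0
  · have : (fun p : Om × Om => join p.1 p.2 n) = fun p : Om × Om => p.1 (n / 2) := by
      funext p; simp [join, h]
    rw [this]
    exact (measurable_pi_apply _).comp measurable_fst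
  · have : (fun p : Om × Om => join p.1 p.2 n) = fun p : Om × Om => p.2 (n / 2) := by
      funext p; simp [join, h]
    rw [this]
    exact (measurable_pi_apply _).comp measurable_snd

/-- A set that is not nowhere dense is dense in some cylinder. -/
theorem exists_cyl_nwd {S : Set Om} (h : ¬ IsNowhereDense S) :
    ∃ (R0 : Om) (m : ℕ), ∀ (R : Om) (M : ℕ), (∀ i < m, R i = R0 i) →
      ∃ R' ∈ S, ∀ i < M, R' i = R i := by
  unfold IsNowhereDense at h
  rw [← Ne, ← Set.nonempty_iff_ne_empty] at h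
  obtain ⟨R0, hR0⟩ := h
  obtain ⟨V, ⟨x, m, rfl⟩, hxV, hVS⟩ :=
    (PiNat.isTopologicalBasis_cylinders (fun _ : ℕ => Bool)).exists_subset_of_mem_open hR0
      isOpen_interior
  refine ⟨x, m, fun R M hR => ?_⟩
  have hRx : R ∈ PiNat.cylinder (E := fun _ : ℕ => Bool) x m := PiNat.mem_cylinder_iff.2 hR
  have hRc : R ∈ closure S := interior_subset (hVS hRx)
  obtain ⟨R', hR'1, hR'2⟩ := mem_closure_iff.1 hRc (PiNat.cylinder (E := fun _ : ℕ => Bool) R M)
    (PiNat.isOpen_cylinder _ R M) (PiNat.self_mem_cylinder R M)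
  exact ⟨R', hR'2, PiNat.mem_cylinder_iff.1 hR'1⟩

/-- bound for the positions mentioned by a list of facts -/
theorem exists_bound (E : Facts) : ∃ M, ∀ f ∈ E, f.1 < M := by
  induction E with
  | nil => exact ⟨0, by simp⟩
  | cons f E ih =>
    obtain ⟨M, hM⟩ := ih
    refine ⟨max M (f.1 + 1), fun g hg => ?_⟩
    rcases List.mem_cons.1 hg with rfl | hg
    · omega
    · have := hM g hg; omega

/-- the r.e. predicate used in `TR_of_dense` -/
theorem re_dense (c : Code) (σ : List Bool) :
    REPred (fun x : Facts × ℕ × Bool => ∃ y : Facts × List Bool,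
      Hit c y.1 x.2.1 x.2.2 ∧ ∀ f ∈ y.1,
        ((f.1 % 2 = 0 ∧ ∃ i : ℕ, x.1[i]? = some (f.1 / 2, f.2)) ∨
          (f.1 % 2 = 1 ∧ (σ ++ y.2)[f.1 / 2]? = some f.2))) := by
  refine re_ex (p := fun z : (Facts × ℕ × Bool) × (Facts × List Bool) =>
      Hit c z.2.1 z.1.2.1 z.1.2.2 ∧ ∀ f ∈ z.2.1,
        ((f.1 % 2 = 0 ∧ ∃ i : ℕ, z.1.1[i]? = some (f.1 / 2, f.2)) ∨
          (f.1 % 2 = 1 ∧ (σ ++ z.2.2)[f.1 / 2]? = some f.2))) ?_
  refine re_and ?_ ?_
  · have hf : Computable (fun z : (Facts × ℕ × Bool) × (Facts × List Bool) =>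
        ((c, z.2.1, z.1.2.1, z.1.2.2) : Code × Facts × ℕ × Bool)) := by
      refine Primrec.to_comp ?_
      refine (Primrec.const c).pair ?_
      refine (Primrec.fst.comp Primrec.snd).pair ?_
      exact ((Primrec.fst.comp (Primrec.snd.comp Primrec.fst))).pair
        (Primrec.snd.comp (Primrec.snd.comp Primrec.fst))
    exact re_comp re_hit hf
  · refine re_all_mem (p := fun w : ((Facts × ℕ × Bool) × (Facts × List Bool)) × (ℕ × Bool) =>
        ((w.2.1 % 2 = 0 ∧ ∃ i : ℕ, w.1.1.1[i]? = some (w.2.1 / 2, w.2.2)) ∨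
          (w.2.1 % 2 = 1 ∧ (σ ++ w.1.2.2)[w.2.1 / 2]? = some w.2.2)))
        (L := fun z => z.2.1) ?_ (Primrec.fst.comp Primrec.snd).to_comp
    have h2 : Primrec (fun w : ((Facts × ℕ × Bool) × (Facts × List Bool)) × (ℕ × Bool) =>
        w.2.1 / 2) := Primrec.nat_div.comp (Primrec.fst.comp Primrec.snd) (Primrec.const 2)
    have hm : Primrec (fun w : ((Facts × ℕ × Bool) × (Facts × List Bool)) × (ℕ × Bool) =>
        w.2.1 % 2) := Primrec.nat_mod.comp (Primrec.fst.comp Primrec.snd) (Primrec.const 2)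
    refine re_or (re_and ?_ ?_) (re_and ?_ ?_)
    · exact (PrimrecPred.computablePred (Primrec.eq.comp hm (Primrec.const 0))).to_re
    · refine re_ex (p := fun u : (((Facts × ℕ × Bool) × (Facts × List Bool)) × (ℕ × Bool)) × ℕ =>
        u.1.1.1.1[u.2]? = some (u.1.2.1 / 2, u.1.2.2)) ?_
      refine (PrimrecPred.computablePred (Primrec.eq.comp ?_ ?_)).to_re
      · exact Primrec.list_getElem?.comp
          (Primrec.fst.comp (Primrec.fst.comp (Primrec.fst.comp Primrec.fst))) Primrec.snd
      · exact Primrec.option_some.comp ((h2.comp Primrec.fst).pair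
          (Primrec.snd.comp (Primrec.snd.comp Primrec.fst)))
    · exact (PrimrecPred.computablePred (Primrec.eq.comp hm (Primrec.const 1))).to_re
    · refine (PrimrecPred.computablePred (Primrec.eq.comp ?_ ?_)).to_re
      · refine Primrec.list_getElem?.comp ?_ h2
        exact Primrec.list_append.comp (Primrec.const σ)
          (Primrec.snd.comp (Primrec.snd.comp Primrec.fst))
      · exact Primrec.option_some.comp (Primrec.snd.comp Primrec.snd)

/-- If the set of `R` with `Red c (join P R) Q` is not nowhere dense then `Q ≤_T P`.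
`Q n = v` iff there are `τ : List Bool` and `E` with `Hit c E n v`, the even facts `(2j, w)` of `E`
true of `P` and the odd facts `(2j+1, w)` of `E` true of the string `σ ++ τ`, where `[σ]` is a
cylinder in which `{R | Red c (join P R) Q}` is dense. -/
theorem TR_of_dense {P Q : Om} {c : Code}
    (h : ¬ IsNowhereDense {R : Om | Red c (join P R) Q}) : TR Q P := by
  obtain ⟨R0, m, hd⟩ := exists_cyl_nwd h
  set σ : List Bool := (List.range m).map R0 with hσ
  obtain ⟨c', hc'⟩ := hit_code (p := fun D n v => ∃ y : Facts × List Bool,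
      Hit c y.1 n v ∧ ∀ f ∈ y.1,
        ((f.1 % 2 = 0 ∧ ∃ i : ℕ, D[i]? = some (f.1 / 2, f.2)) ∨
          (f.1 % 2 = 1 ∧ (σ ++ y.2)[f.1 / 2]? = some f.2))) (re_dense c σ)
  refine TR_of_Red (c := c') fun n v => ?_
  constructor
  · intro hQ
    obtain ⟨R, hR, hRm⟩ := hd R0 m (fun _ _ => rfl)
    obtain ⟨E, hE, hhit⟩ := (hR n v).1 hQ
    obtain ⟨M, hM⟩ := exists_bound E
    refine ⟨(E.filter (fun f => f.1 % 2 = 0)).map (fun f => (f.1 / 2, f.2)), ?_, ?_⟩
    · intro g hg
      obtain ⟨f, hf, rfl⟩ := List.mem_map.1 hg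
      obtain ⟨hf1, hf2⟩ := List.mem_filter.1 hf
      have h1 := hE f hf1
      have h2 : f.1 % 2 = 0 := by simpa using hf2
      simpa [join, h2] using h1
    · refine (hc' _ _ _).2 ⟨(E, (List.range M).map (fun i => R (m + i))), hhit, ?_⟩
      intro f hf
      have hfE := hE f hf
      rcases Nat.mod_two_eq_zero_or_one f.1 with h2 | h2
      · left
        refine ⟨h2, ?_⟩
        have hmem : (f.1 / 2, f.2) ∈
            (E.filter (fun f => f.1 % 2 = 0)).map (fun f => (f.1 / 2, f.2)) :=
          List.mem_map.2 ⟨f, List.mem_filter.2 ⟨hf, by simpa using h2⟩, rfl⟩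
        exact List.mem_iff_getElem?.1 hmem
      · right
        refine ⟨h2, ?_⟩
        have h3 : R (f.1 / 2) = f.2 := by
          have : ¬ f.1 % 2 = 0 := by omega
          simpa [join, this] using hfE
        have hlt : f.1 / 2 < M := by have := hM f hf; omega
        rw [← h3]
        by_cases hlm : f.1 / 2 < m
        · rw [List.getElem?_append_left (by simpa [hσ] using hlm)]
          simp [hσ, hlm, hRm _ hlm]
        · rw [List.getElem?_append_right (by simpa [hσ] using hlm)]
          have e1 : f.1 / 2 - σ.length < M := by simp [hσ]; omega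
          have e2 : m + (f.1 / 2 - m) = f.1 / 2 := by omega
          simp only [List.getElem?_map, List.getElem?_range e1, Option.map_some]
          simp [hσ, e2]
  · rintro ⟨D, hD, hhit⟩
    obtain ⟨⟨E, τ⟩, hE, hfE⟩ := (hc' _ _ _).1 hhit
    simp only at hE hfE
    obtain ⟨R', hR', hag⟩ := hd (fun j => (σ ++ τ).getD j false) (σ ++ τ).length (by
      intro i hi
      simp [hσ, List.getD_eq_getElem?_getD, List.getElem?_append_left, hi])
    refine (hR' n v).2 ⟨E, ?_, hE⟩
    intro f hf
    rcases hfE f hf with ⟨h0, i, hi⟩ | ⟨h1, hi⟩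
    · have : (f.1 / 2, f.2) ∈ D := List.mem_iff_getElem?.2 ⟨i, hi⟩
      have := hD _ this
      simpa [join, h0] using this
    · have hlt : f.1 / 2 < (σ ++ τ).length := by
        by_contra hcon
        rw [List.getElem?_eq_none (by omega)] at hi
        simp at hi
      have h3 := hag _ hlt
      have h4 : (σ ++ τ).getD (f.1 / 2) false = f.2 := by
        rw [List.getD_eq_getElem?_getD, hi]; rfl
      have : ¬ f.1 % 2 = 0 := by omega
      simp only [join, this, if_false]
      rw [h3, h4]

theorem isMeagre_iUnion_nd {ι : Type*} [Countable ι] {S : ι → Set Om}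
    (h : ∀ i, IsNowhereDense (S i)) : IsMeagre (⋃ i, S i) :=
  isMeagre_iUnion fun i => (h i).isMeagre

theorem generic_not_TR {P Q : Om} (h : ¬ TR Q P) : ∀ᶠ R in residual Om, ¬ TR Q (join P R) := by
  have : IsMeagre (⋃ c : Code, {R : Om | Red c (join P R) Q}) := by
    refine isMeagre_iUnion_nd fun c => ?_
    by_contra hc
    exact h (TR_of_dense hc)
  have h2 : (⋃ c : Code, {R : Om | Red c (join P R) Q})ᶜ ∈ residual Om := this
  filter_upwards [h2] with R hR hTR
  obtain ⟨c, hc⟩ := TR_iff_Red.1 hTR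
  exact hR (mem_iUnion.2 ⟨c, hc⟩)

/-- `{A | Red c (del A i) (col A i)}` is nowhere dense (flip one bit of column `i`). -/
theorem nowhereDense_col (c : Code) (i : ℕ) :
    IsNowhereDense {A : Om | Red c (del A i) (col A i)} := by
  by_contra h
  obtain ⟨R0, m, hd⟩ := exists_cyl_nwd h
  obtain ⟨A, hA, hAm⟩ := hd R0 m (fun _ _ => rfl)
  have hA' : Red c (del A i) (col A i) := hA
  obtain ⟨E, hE, hhit⟩ := (hA' m (col A i m)).1 rfl
  obtain ⟨M, hM⟩ := exists_bound E
  have hmle : m ≤ Nat.pair i m := Nat.right_le_pair i m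
  obtain ⟨A2, hA2, hag⟩ := hd (Function.update A (Nat.pair i m) (!(A (Nat.pair i m))))
    (max M (Nat.pair i m + 1)) (by
      intro j hj
      rw [Function.update_of_ne (by omega), hAm j hj])
  have hA2' : Red c (del A2 i) (col A2 i) := hA2
  have h1 : Tr (del A2 i) E := by
    intro f hf
    have h2 := hE f hf
    have h3 := hM f hf
    rw [← h2]
    unfold del
    by_cases h4 : (Nat.unpair f.1).1 = i
    · simp [h4]
    · have h5 := hag f.1 (by omega)
      have h6 : f.1 ≠ Nat.pair i m := by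
        rintro h6; apply h4; rw [h6]; simp
      rw [Function.update_of_ne h6] at h5
      simp [h4, h5]
  have h7 : col A2 i m = col A i m := (hA2' m _).2 ⟨E, h1, hhit⟩
  have h8 := hag (Nat.pair i m) (by omega)
  rw [Function.update_self] at h8
  unfold col at h7
  rw [h7] at h8
  simp at h8

theorem exists_indep : ∃ A : Om, ∀ i, ¬ TR (col A i) (del A i) := by
  have h : IsMeagre (⋃ x : Code × ℕ, {A : Om | Red x.1 (del A x.2) (col A x.2)}) :=
    isMeagre_iUnion_nd fun x => nowhereDense_col x.1 x.2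
  have h2 : (⋃ x : Code × ℕ, {A : Om | Red x.1 (del A x.2) (col A x.2)})ᶜ ∈ residual Om := h
  obtain ⟨A, hA⟩ := (dense_of_mem_residual h2).nonempty
  refine ⟨A, fun i hi => ?_⟩
  obtain ⟨c, hc⟩ := TR_iff_Red.1 hi
  exact hA (mem_iUnion.2 ⟨(c, i), hc⟩)

end Crest.Agent.R292
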