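import Crest.Agent.R292.Defs

/-!
R292 (helper725): prefixes of reals, string functionals, normal form of Turing reducibility.
-/

set_option autoImplicit false

namespace Crest.Agent.R292


/-- The prefix of length `n` of a real. -/
def pre (X : Om) (n : ℕ) : List Bool := (List.range n).map X

@[simp] lemma length_pre (X : Om) (n : ℕ) : (pre X n).length = n := by simp [pre]

lemma getElem?_pre (X : Om) (n i : ℕ) :
    (pre X n)[i]? = if i < n then some (X i) else none := by
  unfold pre
  rw [List.getElem?_map]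
  split_ifs with h
  · rw [List.getElem?_range h]; rfl
  · rw [List.getElem?_eq_none (by simpa using h)]; rfl

lemma getElem?_pre_of_lt (X : Om) {n i : ℕ} (h : i < n) : (pre X n)[i]? = some (X i) := by
  rw [getElem?_pre, if_pos h]

@[simp] lemma getElem_pre (X : Om) (n i : ℕ) (h : i < (pre X n).length) :
    (pre X n)[i] = X i := by
  have h1 : i < n := by simpa using h
  have h2 := getElem?_pre_of_lt X h1
  rw [List.getElem?_eq_getElem h] at h2
  exact Option.some.inj h2

lemma pre_mono (X : Om) {m n : ℕ} (h : m ≤ n) : pre X m <+: pre X n := by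
  rw [List.prefix_iff_getElem?]
  intro i hi
  rw [length_pre] at hi
  rw [getElem?_pre_of_lt X (lt_of_lt_of_le hi h)]
  simp

lemma pre_succ (X : Om) (n : ℕ) : pre X (n + 1) = pre X n ++ [X n] := by
  unfold pre
  rw [List.range_succ, List.map_append]; rfl

@[simp] lemma pre_zero (X : Om) : pre X 0 = [] := rfl

lemma pre_congr {X Y : Om} {n : ℕ} (h : ∀ i < n, X i = Y i) : pre X n = pre Y n := by
  unfold pre
  apply List.map_congr_left
  intro a ha
  exact h a (List.mem_range.1 ha)

/-- two prefixes of the same real are comparable: value at a common position -/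
lemma getElem?_of_prefix {α : Type*} {σ τ : List α} (h : σ <+: τ) {i : ℕ} {a : α}
    (hi : σ[i]? = some a) : τ[i]? = some a := by
  obtain ⟨ρ, rfl⟩ := h
  rw [List.getElem?_append_left]
  · exact hi
  · by_contra hh
    rw [List.getElem?_eq_none (by omega)] at hi
    exact absurd hi (by simp)

/-- `φ` approximates the partial function `f` along the real `X` -/
structure Approx (X : Om) (f : ℕ →. ℕ) (φ : List Bool → ℕ → Option ℕ) : Prop where
  prim : Primrec₂ φ
  mono : ∀ σ τ n v, σ <+: τ → φ σ n = some v → φ τ n = some v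
  spec : ∀ n v, v ∈ f n ↔ ∃ k, φ (pre X k) n = some v

lemma approx_total {X : Om} {g : ℕ → ℕ} (hg : Primrec g) :
    Approx X (fun n => Part.some (g n)) (fun _ n => some (g n)) where
  prim := (Primrec.option_some.comp (hg.comp Primrec.snd)).to₂
  mono := by intro σ τ n v _ h; exact h
  spec := by
    intro n v
    simp [eq_comm]

lemma approx_oracle (X : Om) :
    Approx X (chi X) (fun σ n => (σ[n]?).map Bool.toNat) where
  prim := by
    apply Primrec.option_map
    · exact Primrec.list_getElem?.comp Primrec.fst Primrec.snd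
    · exact ((Primrec.dom_bool Bool.toNat).comp Primrec.snd).to₂
  mono := by
    intro σ τ n v hst h
    rw [Option.map_eq_some_iff] at h ⊢
    obtain ⟨a, ha, rfl⟩ := h
    exact ⟨a, getElem?_of_prefix hst ha, rfl⟩
  spec := by
    intro n v
    show v ∈ Part.some (X n).toNat ↔ _
    constructor
    · intro h
      rw [Part.mem_some_iff] at h
      exact ⟨n + 1, by rw [getElem?_pre_of_lt X (Nat.lt_succ_self n), h]; rfl⟩
    · rintro ⟨k, hk⟩
      rw [getElem?_pre] at hk
      split_ifs at hk with h
      · rw [Part.mem_some_iff]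
        simpa [eq_comm] using hk
      · simp at hk

lemma Approx.common {X : Om} {f : ℕ →. ℕ} {φ : List Bool → ℕ → Option ℕ} (hf : Approx X f φ)
    {k l n v : ℕ} (hkl : k ≤ l) (h : φ (pre X k) n = some v) : φ (pre X l) n = some v :=
  hf.mono _ _ _ _ (pre_mono X hkl) h

lemma approx_pair {X : Om} {f h : ℕ →. ℕ} {φ ψ : List Bool → ℕ → Option ℕ}
    (hf : Approx X f φ) (hh : Approx X h ψ) :
    Approx X (fun n => Nat.pair <$> f n <*> h n)
      (fun σ n => (φ σ n).bind fun a => (ψ σ n).map fun b => Nat.pair a b) where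
  prim := by
    apply Primrec.option_bind (f := fun p : List Bool × ℕ => φ p.1 p.2)
      (g := fun (p : List Bool × ℕ) (a : ℕ) => (ψ p.1 p.2).map fun b => Nat.pair a b)
    · exact hf.prim.comp Primrec.fst Primrec.snd
    · apply Primrec.option_map (f := fun q : (List Bool × ℕ) × ℕ => ψ q.1.1 q.1.2)
        (g := fun (q : (List Bool × ℕ) × ℕ) b => Nat.pair q.2 b)
      · exact hh.prim.comp (Primrec.fst.comp Primrec.fst) (Primrec.snd.comp Primrec.fst)
      · exact (Primrec₂.natPair.comp (Primrec.snd.comp Primrec.fst) Primrec.snd).to₂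
  mono := by
    intro σ τ n v hst h
    rw [Option.bind_eq_some_iff] at h ⊢
    obtain ⟨a, ha, h⟩ := h
    rw [Option.map_eq_some_iff] at h
    obtain ⟨b, hb, rfl⟩ := h
    refine ⟨a, hf.mono _ _ _ _ hst ha, ?_⟩
    rw [Option.map_eq_some_iff]
    exact ⟨b, hh.mono _ _ _ _ hst hb, rfl⟩
  spec := by
    intro n v
    have key : v ∈ (Nat.pair <$> f n <*> h n) ↔ ∃ a ∈ f n, ∃ b ∈ h n, v = Nat.pair a b := by
      simp only [Seq.seq, Part.map_eq_map, Part.mem_bind_iff, Part.mem_map_iff]
      constructor
      · rintro ⟨g, ⟨a, ha, rfl⟩, b, hb, rfl⟩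
        exact ⟨a, ha, b, hb, rfl⟩
      · rintro ⟨a, ha, b, hb, rfl⟩
        exact ⟨Nat.pair a, ⟨a, ha, rfl⟩, b, hb, rfl⟩
    rw [key]
    constructor
    · rintro ⟨a, ha, b, hb, rfl⟩
      obtain ⟨k, hk⟩ := (hf.spec n a).1 ha
      obtain ⟨l, hl⟩ := (hh.spec n b).1 hb
      refine ⟨max k l, ?_⟩
      rw [hf.common (le_max_left k l) hk, hh.common (le_max_right k l) hl]
      rfl
    · rintro ⟨k, hk⟩
      rw [Option.bind_eq_some_iff] at hk
      obtain ⟨a, ha, hk⟩ := hk
      rw [Option.map_eq_some_iff] at hk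
      obtain ⟨b, hb, rfl⟩ := hk
      exact ⟨a, (hf.spec n a).2 ⟨k, ha⟩, b, (hh.spec n b).2 ⟨k, hb⟩, rfl⟩

lemma mem_comp_aux (f h : ℕ → Part ℕ) (n v : ℕ) :
    v ∈ Part.bind (h n) f ↔ ∃ a ∈ h n, v ∈ f a := Part.mem_bind_iff

lemma approx_comp {X : Om} {f h : ℕ →. ℕ} {φ ψ : List Bool → ℕ → Option ℕ}
    (hf : Approx X f φ) (hh : Approx X h ψ) :
    Approx X (fun n => h n >>= f) (fun σ n => (ψ σ n).bind (φ σ)) where
  prim := by
    apply Primrec.option_bind (f := fun p : List Bool × ℕ => ψ p.1 p.2)
      (g := fun (p : List Bool × ℕ) (a : ℕ) => φ p.1 a)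
    · exact hh.prim.comp Primrec.fst Primrec.snd
    · exact (hf.prim.comp (Primrec.fst.comp Primrec.fst) Primrec.snd).to₂
  mono := by
    intro σ τ n v hst h
    rw [Option.bind_eq_some_iff] at h ⊢
    obtain ⟨a, ha, h⟩ := h
    exact ⟨a, hh.mono _ _ _ _ hst ha, hf.mono _ _ _ _ hst h⟩
  spec := by
    intro n v
    refine Iff.trans (mem_comp_aux f h n v) ?_
    constructor
    · rintro ⟨a, ha, hv⟩
      obtain ⟨k, hk⟩ := (hh.spec n a).1 ha
      obtain ⟨l, hl⟩ := (hf.spec a v).1 hv
      refine ⟨max k l, ?_⟩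
      rw [hh.common (le_max_left k l) hk]
      exact hf.common (le_max_right k l) hl
    · rintro ⟨k, hk⟩
      rw [Option.bind_eq_some_iff] at hk
      obtain ⟨a, ha, hk⟩ := hk
      exact ⟨a, (hh.spec n a).2 ⟨k, ha⟩, (hf.spec a v).2 ⟨k, hk⟩⟩

/-- the evaluator for primitive recursion, unpaired form -/
def precEv (φ ψ : List Bool → ℕ → Option ℕ) (σ : List Bool) (a n : ℕ) : Option ℕ :=
  Nat.rec (φ σ a) (fun y IH => IH.bind fun i => ψ σ (Nat.pair a (Nat.pair y i))) n

lemma precEv_mono {φ ψ : List Bool → ℕ → Option ℕ}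
    (hφ : ∀ σ τ n v, σ <+: τ → φ σ n = some v → φ τ n = some v)
    (hψ : ∀ σ τ n v, σ <+: τ → ψ σ n = some v → ψ τ n = some v)
    {σ τ : List Bool} (hst : σ <+: τ) (a n v : ℕ) (h : precEv φ ψ σ a n = some v) :
    precEv φ ψ τ a n = some v := by
  induction n generalizing v with
  | zero => exact hφ _ _ _ _ hst h
  | succ n ih =>
    have h' : (precEv φ ψ σ a n).bind (fun i => ψ σ (Nat.pair a (Nat.pair n i))) = some v := h
    rw [Option.bind_eq_some_iff] at h'
    obtain ⟨i, hi, h'⟩ := h'
    show (precEv φ ψ τ a n).bind (fun i => ψ τ (Nat.pair a (Nat.pair n i))) = some v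
    rw [ih i hi]
    exact hψ _ _ _ _ hst h'

lemma approx_prec {X : Om} {f h : ℕ →. ℕ} {φ ψ : List Bool → ℕ → Option ℕ}
    (hf : Approx X f φ) (hh : Approx X h ψ) :
    Approx X (fun p =>
        let (a, n) := Nat.unpair p
        n.rec (f a) fun y IH => do
          let i ← IH
          h (Nat.pair a (Nat.pair y i)))
      (fun σ p => precEv φ ψ σ p.unpair.1 p.unpair.2) where
  prim := by
    have h1 : Primrec₂ (fun (q : List Bool × ℕ) (n : ℕ) => precEv φ ψ q.1 q.2 n) := by
      unfold precEv
      apply Primrec.nat_rec (f := fun q : List Bool × ℕ => φ q.1 q.2)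
        (g := fun (q : List Bool × ℕ) (p : ℕ × Option ℕ) =>
          p.2.bind fun i => ψ q.1 (Nat.pair q.2 (Nat.pair p.1 i)))
      · exact hf.prim.comp Primrec.fst Primrec.snd
      · apply Primrec.option_bind (f := fun r : (List Bool × ℕ) × (ℕ × Option ℕ) => r.2.2)
          (g := fun (r : (List Bool × ℕ) × (ℕ × Option ℕ)) (i : ℕ) =>
            ψ r.1.1 (Nat.pair r.1.2 (Nat.pair r.2.1 i)))
        · exact Primrec.snd.comp Primrec.snd
        · apply Primrec₂.mk
          apply hh.prim.comp
          · exact Primrec.fst.comp (Primrec.fst.comp Primrec.fst)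
          · apply Primrec₂.natPair.comp
            · exact Primrec.snd.comp (Primrec.fst.comp Primrec.fst)
            · apply Primrec₂.natPair.comp
              · exact Primrec.fst.comp (Primrec.snd.comp Primrec.fst)
              · exact Primrec.snd
    have h2 : Primrec (fun p : List Bool × ℕ => precEv φ ψ p.1 p.2.unpair.1 p.2.unpair.2) := by
      apply h1.comp (f := fun (q : List Bool × ℕ) (n : ℕ) => precEv φ ψ q.1 q.2 n)
        (g := fun p : List Bool × ℕ => (p.1, p.2.unpair.1)) (h := fun p => p.2.unpair.2)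
      · exact Primrec.fst.pair (Primrec.fst.comp (Primrec.unpair.comp Primrec.snd))
      · exact Primrec.snd.comp (Primrec.unpair.comp Primrec.snd)
    exact h2.to₂
  mono := by
    intro σ τ n v hst hv
    exact precEv_mono hf.mono hh.mono hst _ _ _ hv
  spec := by
    intro p v
    show v ∈ (Nat.rec (f p.unpair.1) (fun y IH => do
          let i ← IH
          h (Nat.pair p.unpair.1 (Nat.pair y i))) p.unpair.2 : Part ℕ) ↔ _
    generalize p.unpair.1 = a
    generalize p.unpair.2 = n
    induction n generalizing v with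
    | zero => exact hf.spec a v
    | succ n ih =>
      constructor
      · intro hv
        have hv' : ∃ i ∈ (Nat.rec (f a) (fun y IH => do
            let i ← IH
            h (Nat.pair a (Nat.pair y i))) n : Part ℕ), v ∈ h (Nat.pair a (Nat.pair n i)) := by
          simpa [Part.bind_eq_bind, Part.mem_bind_iff] using hv
        obtain ⟨i, hi, hv'⟩ := hv'
        obtain ⟨k, hk⟩ := (ih i).1 hi
        obtain ⟨l, hl⟩ := (hh.spec _ v).1 hv'
        refine ⟨max k l, ?_⟩
        show (precEv φ ψ (pre X (max k l)) a n).bind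
          (fun i => ψ (pre X (max k l)) (Nat.pair a (Nat.pair n i))) = some v
        rw [precEv_mono hf.mono hh.mono (pre_mono X (le_max_left k l)) _ _ _ hk]
        exact hh.common (le_max_right k l) hl
      · rintro ⟨k, hk⟩
        have hk' : (precEv φ ψ (pre X k) a n).bind
          (fun i => ψ (pre X k) (Nat.pair a (Nat.pair n i))) = some v := hk
        rw [Option.bind_eq_some_iff] at hk'
        obtain ⟨i, hi, hk'⟩ := hk'
        have h1 := (ih i).2 ⟨k, hi⟩
        have h2 := (hh.spec _ v).2 ⟨k, hk'⟩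
        show v ∈ (Part.bind _ _)
        rw [Part.mem_bind_iff]
        exact ⟨i, h1, h2⟩

/-- is the value not a defined nonzero number? -/
def stopAt (o : Option ℕ) : Bool := decide (o = none ∨ o = some 0)

/-- the bounded search evaluator -/
def rfindEv (φ : List Bool → ℕ → Option ℕ) (σ : List Bool) (a : ℕ) : Option ℕ :=
  (fun n => if φ σ (Nat.pair a n) = some 0 ∧ n < σ.length then some n else none)
    (List.findIdx (fun m => stopAt (φ σ (Nat.pair a m))) (List.range σ.length))

lemma rfindEv_eq_some {φ : List Bool → ℕ → Option ℕ} {σ : List Bool} {a n : ℕ} :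
    rfindEv φ σ a = some n ↔ n < σ.length ∧ φ σ (Nat.pair a n) = some 0 ∧
      ∀ m < n, ∃ v, φ σ (Nat.pair a m) = some (v + 1) := by
  unfold rfindEv
  simp only
  set N := List.findIdx (fun m => stopAt (φ σ (Nat.pair a m))) (List.range σ.length) with hN
  constructor
  · intro h
    split_ifs at h with h1
    obtain rfl : N = n := Option.some.inj h
    refine ⟨h1.2, h1.1, ?_⟩
    intro m hm
    have h2 := List.not_of_lt_findIdx (xs := List.range σ.length)
      (p := fun m => stopAt (φ σ (Nat.pair a m))) (i := m) hm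
    rw [List.getElem_range] at h2
    unfold stopAt at h2
    rcases hφ : φ σ (Nat.pair a m) with _ | v
    · simp [hφ] at h2
    · cases v with
      | zero => simp [hφ] at h2
      | succ v => exact ⟨v, rfl⟩
  · rintro ⟨h1, h2, h3⟩
    have : N = n := by
      rw [hN]
      rw [List.findIdx_eq (by simpa using h1)]
      refine ⟨?_, ?_⟩
      · rw [List.getElem_range]
        simp [stopAt, h2]
      · intro j hj
        rw [List.getElem_range]
        obtain ⟨v, hv⟩ := h3 j hj
        simp [stopAt, hv]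
    rw [this, if_pos ⟨h2, h1⟩]

lemma mem_rfind_aux (f : ℕ → Part ℕ) (a n : ℕ) :
    n ∈ (Nat.rfind fun n => (fun m => decide (m = 0)) <$> f (Nat.pair a n)) ↔
        0 ∈ f (Nat.pair a n) ∧ ∀ m < n, ∃ v, (v + 1) ∈ f (Nat.pair a m) := by
  refine Iff.trans Nat.mem_rfind ?_
  constructor
  · rintro ⟨h1, h2⟩
    constructor
    · rw [Part.map_eq_map, Part.mem_map_iff] at h1
      obtain ⟨v, hv, hv'⟩ := h1
      have : v = 0 := by simpa using hv'
      rw [← this]; exact hv
    · intro m hm
      have h3 := h2 hm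
      rw [Part.map_eq_map, Part.mem_map_iff] at h3
      obtain ⟨v, hv, hv'⟩ := h3
      have : v ≠ 0 := by simpa using hv'
      obtain ⟨w, rfl⟩ := Nat.exists_eq_succ_of_ne_zero this
      exact ⟨w, hv⟩
  · rintro ⟨h1, h2⟩
    constructor
    · rw [Part.map_eq_map, Part.mem_map_iff]
      exact ⟨0, h1, by simp⟩
    · intro m hm
      obtain ⟨v, hv⟩ := h2 m hm
      rw [Part.map_eq_map, Part.mem_map_iff]
      exact ⟨v + 1, hv, by simp⟩

lemma approx_rfind {X : Om} {f : ℕ →. ℕ} {φ : List Bool → ℕ → Option ℕ}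
    (hf : Approx X f φ) :
    Approx X (fun a => Nat.rfind fun n => (fun m => m = 0) <$> f (Nat.pair a n))
      (rfindEv φ) where
  prim := by
    have h1 : Primrec (fun p : List Bool × ℕ =>
        List.findIdx (fun m => stopAt (φ p.1 (Nat.pair p.2 m))) (List.range p.1.length)) := by
      apply Primrec.list_findIdx (f := fun p : List Bool × ℕ => List.range p.1.length)
        (p := fun (p : List Bool × ℕ) (m : ℕ) => stopAt (φ p.1 (Nat.pair p.2 m)))
      · exact Primrec.list_range.comp (Primrec.list_length.comp Primrec.fst)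
      · have hs : Primrec stopAt := by
          unfold stopAt
          have := (PrimrecRel.comp (Primrec.eq (α := Option ℕ)) Primrec.id
            (Primrec.const none)).or (PrimrecRel.comp (Primrec.eq (α := Option ℕ)) Primrec.id
            (Primrec.const (some 0)))
          exact this.decide
        apply Primrec₂.mk
        apply hs.comp
        apply hf.prim.comp
        · exact Primrec.fst.comp Primrec.fst
        · exact Primrec₂.natPair.comp (Primrec.snd.comp Primrec.fst) Primrec.snd
    have h2 : Primrec₂ (fun (p : List Bool × ℕ) (n : ℕ) =>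
        if φ p.1 (Nat.pair p.2 n) = some 0 ∧ n < p.1.length then some n else none) := by
      apply Primrec₂.mk
      apply Primrec.ite
      · apply PrimrecPred.and
        · apply PrimrecRel.comp (Primrec.eq (α := Option ℕ))
          · apply hf.prim.comp
            · exact Primrec.fst.comp Primrec.fst
            · exact Primrec₂.natPair.comp (Primrec.snd.comp Primrec.fst) Primrec.snd
          · exact Primrec.const _
        · apply PrimrecRel.comp Primrec.nat_lt
          · exact Primrec.snd
          · exact Primrec.list_length.comp (Primrec.fst.comp Primrec.fst)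
      · exact Primrec.option_some.comp Primrec.snd
      · exact Primrec.const _
    exact (h2.comp Primrec.id h1).to₂
  mono := by
    intro σ τ n v hst h
    rw [rfindEv_eq_some] at h ⊢
    obtain ⟨h1, h2, h3⟩ := h
    refine ⟨lt_of_lt_of_le h1 hst.length_le, hf.mono _ _ _ _ hst h2, ?_⟩
    intro m hm
    obtain ⟨w, hw⟩ := h3 m hm
    exact ⟨w, hf.mono _ _ _ _ hst hw⟩
  spec := by
    intro a n
    have key : n ∈ (Nat.rfind fun n => (fun m => m = 0) <$> f (Nat.pair a n)) ↔
        0 ∈ f (Nat.pair a n) ∧ ∀ m < n, ∃ v, (v + 1) ∈ f (Nat.pair a m) :=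
      mem_rfind_aux f a n
    rw [key]
    constructor
    · rintro ⟨h1, h2⟩
      obtain ⟨k, hk⟩ := (hf.spec _ _).1 h1
      have h3 : ∀ m, ∃ l, m < n → ∃ v, φ (pre X l) (Nat.pair a m) = some (v + 1) := by
        intro m
        by_cases hm : m < n
        · obtain ⟨v, hv⟩ := h2 m hm
          obtain ⟨l, hl⟩ := (hf.spec _ _).1 hv
          exact ⟨l, fun _ => ⟨v, hl⟩⟩
        · exact ⟨0, fun h => absurd h hm⟩
      choose l hl using h3
      set K := max k (max (n + 1) (∑ m ∈ Finset.range n, l m)) with hK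
      refine ⟨K, ?_⟩
      rw [rfindEv_eq_some]
      refine ⟨?_, hf.common (le_max_left _ _) hk, ?_⟩
      · rw [length_pre]
        have : n + 1 ≤ K := le_trans (le_max_left _ _) (le_max_right _ _)
        omega
      · intro m hm
        obtain ⟨v, hv⟩ := hl m hm
        refine ⟨v, hf.common ?_ hv⟩
        have : l m ≤ ∑ m ∈ Finset.range n, l m :=
          Finset.single_le_sum (f := l) (fun _ _ => Nat.zero_le _) (Finset.mem_range.2 hm)
        exact le_trans this (le_trans (le_max_right _ _) (le_max_right _ _))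
    · rintro ⟨k, hk⟩
      rw [rfindEv_eq_some] at hk
      obtain ⟨h1, h2, h3⟩ := hk
      refine ⟨(hf.spec _ _).2 ⟨k, h2⟩, ?_⟩
      intro m hm
      obtain ⟨v, hv⟩ := h3 m hm
      exact ⟨v, (hf.spec _ _).2 ⟨k, hv⟩⟩

/-- every partial function recursive in a real has a primitive recursive evaluator -/
theorem exists_approx (X : Om) {f : ℕ →. ℕ}
    (h : Nat.RecursiveIn {chi X} f) : ∃ φ, Approx X f φ := by
  induction h with
  | zero => exact ⟨_, approx_total (Primrec.const 0)⟩
  | succ => exact ⟨_, approx_total Primrec.succ⟩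
  | left => exact ⟨_, approx_total (Primrec.fst.comp Primrec.unpair)⟩
  | right => exact ⟨_, approx_total (Primrec.snd.comp Primrec.unpair)⟩
  | oracle g hg =>
    rw [Set.mem_singleton_iff] at hg
    subst hg
    exact ⟨_, approx_oracle X⟩
  | pair _ _ ihf ihh =>
    obtain ⟨φ, hφ⟩ := ihf
    obtain ⟨ψ, hψ⟩ := ihh
    exact ⟨_, approx_pair hφ hψ⟩
  | comp _ _ ihf ihh =>
    obtain ⟨φ, hφ⟩ := ihf
    obtain ⟨ψ, hψ⟩ := ihh
    exact ⟨_, approx_comp hφ hψ⟩
  | prec _ _ ihf ihh =>
    obtain ⟨φ, hφ⟩ := ihf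
    obtain ⟨ψ, hψ⟩ := ihh
    exact ⟨_, approx_prec hφ hψ⟩
  | rfind _ ihf =>
    obtain ⟨φ, hφ⟩ := ihf
    exact ⟨_, approx_rfind hφ⟩

end Crest.Agent.R292
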