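import Crest.Agent.R292.RE
import Crest.Agent.R292.NormalForm

/-!
# R292: `TR a b` iff some enumeration functional `Red c b a`
-/

set_option autoImplicit false

namespace Crest.Agent.R292

open Encodable
open Nat.Partrec (Code)

/-- the graph of the partial function `g` is enumerated from (the graph of) `b`. -/
def EO (b : Om) (g : ℕ →. ℕ) : Prop :=
  ∃ W : Facts → ℕ → ℕ → Prop, REPred (fun x : Facts × ℕ × ℕ => W x.1 x.2.1 x.2.2) ∧
    ∀ n v, v ∈ g n ↔ ∃ D, Tr b D ∧ W D n v

/-- the facts stated by a prefix -/
def factsOf (σ : List Bool) : Facts := (List.range σ.length).map (fun i => (i, (σ[i]?).getD false))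

lemma mem_factsOf {σ : List Bool} {f : ℕ × Bool} :
    f ∈ factsOf σ ↔ σ[f.1]? = some f.2 := by
  unfold factsOf
  rw [List.mem_map]
  constructor
  · rintro ⟨i, hi, rfl⟩
    rw [List.mem_range] at hi
    simp [List.getElem?_eq_getElem hi]
  · intro h
    have hi : f.1 < σ.length := by
      by_contra hh
      rw [List.getElem?_eq_none (by omega)] at h
      exact absurd h (by simp)
    exact ⟨f.1, List.mem_range.2 hi, by rw [h]; rfl⟩

lemma primrec_factsOf : Primrec factsOf := by
  unfold factsOf
  apply Primrec.list_map (f := fun σ : List Bool => List.range σ.length)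
    (g := fun (σ : List Bool) (i : ℕ) => (i, (σ[i]?).getD false))
  · exact Primrec.list_range.comp Primrec.list_length
  · apply Primrec₂.mk
    apply Primrec.pair Primrec.snd
    exact Primrec.option_getD.comp (Primrec.list_getElem?.comp Primrec.fst Primrec.snd)
      (Primrec.const false)

lemma Tr_factsOf_iff {b : Om} {σ : List Bool} : Tr b (factsOf σ) ↔ σ = pre b σ.length := by
  constructor
  · intro h
    apply List.ext_getElem?
    intro i
    rw [getElem?_pre]
    split_ifs with hi
    · have h1 : (i, σ[i]) ∈ factsOf σ := by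
        rw [mem_factsOf]
        exact List.getElem?_eq_getElem hi
      have h2 := h _ h1
      simp only at h2
      rw [List.getElem?_eq_getElem hi, h2]
    · exact List.getElem?_eq_none (by omega)
  · intro h f hf
    rw [mem_factsOf, h, getElem?_pre] at hf
    split_ifs at hf with hi
    exact Option.some.inj hf

/-- the facts in `σ` are all contained in `D` -/
lemma primrecPred_sub : PrimrecPred (fun x : Facts × List Bool => ∀ f ∈ factsOf x.2, f ∈ x.1) := by
  have h1 : PrimrecRel (fun (L : Facts) (x : Facts) => ∀ f ∈ L, f ∈ x) := by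
    apply PrimrecRel.forall_mem_list (R := fun (f : ℕ × Bool) (x : Facts) => f ∈ x)
    have h2 : PrimrecRel (fun (x : Facts) (f : ℕ × Bool) => ∃ g ∈ x, g = f) :=
      PrimrecRel.exists_mem_list (R := fun (g f : ℕ × Bool) => g = f) Primrec.eq
    have h3 : PrimrecRel (fun (f : ℕ × Bool) (x : Facts) => ∃ g ∈ x, g = f) := h2.swap
    exact h3.of_eq (fun f x => by simp)
  exact h1.comp (primrec_factsOf.comp Primrec.snd) Primrec.fst

/-- Every partial function recursive in `b` is enumerated from `b`. -/
theorem EO_of_recursiveIn {b : Om} {g : ℕ →. ℕ} (h : Nat.RecursiveIn {chi b} g) : EO b g := by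
  obtain ⟨φ, hφ⟩ := exists_approx b h
  refine ⟨fun D n v => ∃ σ : List Bool, (∀ f ∈ factsOf σ, f ∈ D) ∧ φ σ n = some v, ?_, ?_⟩
  · have h1 : PrimrecPred (fun y : (Facts × ℕ × ℕ) × List Bool =>
        (∀ f ∈ factsOf y.2, f ∈ y.1.1) ∧ φ y.2 y.1.2.1 = some y.1.2.2) := by
      apply PrimrecPred.and
      · exact primrecPred_sub.comp ((Primrec.fst.comp Primrec.fst).pair Primrec.snd)
      · apply PrimrecRel.comp Primrec.eq
        · exact hφ.prim.comp Primrec.snd (Primrec.fst.comp (Primrec.snd.comp Primrec.fst))
        · exact Primrec.option_some.comp (Primrec.snd.comp (Primrec.snd.comp Primrec.fst))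
    have h2 : REPred (fun y : (Facts × ℕ × ℕ) × List Bool =>
        (∀ f ∈ factsOf y.2, f ∈ y.1.1) ∧ φ y.2 y.1.2.1 = some y.1.2.2) := by
      obtain ⟨_, hd⟩ := h1
      exact (ComputablePred.of_eq ⟨_, hd.to_comp⟩ (fun _ => Iff.rfl)).to_re
    exact re_ex h2
  · intro n v
    rw [hφ.spec]
    constructor
    · rintro ⟨k, hk⟩
      refine ⟨factsOf (pre b k), Tr_factsOf_iff.2 (by simp), pre b k, fun f hf => hf, hk⟩
    · rintro ⟨D, hD, σ, hσ, hk⟩
      have : Tr b (factsOf σ) := fun f hf => hD f (hσ f hf)
      rw [Tr_factsOf_iff] at this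
      exact ⟨σ.length, by rw [← this]; exact hk⟩

theorem Red_of_TR {a b : Om} (h : TR a b) : ∃ c, Red c b a := by
  have h1 : Nat.RecursiveIn {chi b} (chi a) := RecursiveIn.iff_nat.1 h
  obtain ⟨W, hW, hs⟩ := EO_of_recursiveIn h1
  have h2 : REPred (fun x : Facts × ℕ × Bool => W x.1 x.2.1 x.2.2.toNat) := by
    have := re_comp (α := Facts × ℕ × Bool) hW
      (f := fun x : Facts × ℕ × Bool => (x.1, x.2.1, x.2.2.toNat)) (by
        apply Primrec.to_comp
        exact Primrec.fst.pair ((Primrec.fst.comp Primrec.snd).pair
          ((Primrec.dom_bool Bool.toNat).comp (Primrec.snd.comp Primrec.snd))))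
    exact this
  obtain ⟨c, hc⟩ := hit_code (p := fun D n v => W D n v.toNat) h2
  refine ⟨c, fun n v => ?_⟩
  have h3 := hs n v.toNat
  constructor
  · intro hv
    have : v.toNat ∈ chi a n := by
      show v.toNat ∈ Part.some (a n).toNat
      rw [hv]; exact Part.mem_some _
    obtain ⟨D, hD, hw⟩ := h3.1 this
    exact ⟨D, hD, (hc D n v).2 hw⟩
  · rintro ⟨D, hD, hw⟩
    have : v.toNat ∈ chi a n := h3.2 ⟨D, hD, (hc D n v).1 hw⟩
    have h4 : v.toNat = (a n).toNat := by
      have h5 : v.toNat ∈ Part.some (a n).toNat := this
      simpa using h5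
    revert h4
    cases v <;> cases (a n) <;> simp

/-! ## From a computable search to `Nat.RecursiveIn` -/

/-- total functions recursive in a set of oracles -/
def TIn (O : Set (ℕ →. ℕ)) (u : ℕ → ℕ) : Prop := Nat.RecursiveIn O (fun n => Part.some (u n))

lemma TIn.of_computable {O : Set (ℕ →. ℕ)} {u : ℕ → ℕ} (hu : Computable u) : TIn O u := by
  have : Nat.Partrec (fun n => Part.some (u n)) := Partrec.nat_iff.1 hu
  exact this.recursiveIn

lemma TIn.comp {O : Set (ℕ →. ℕ)} {u w : ℕ → ℕ} (hu : TIn O u) (hw : TIn O w) :
    TIn O (fun n => u (w n)) := by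
  refine (Nat.RecursiveIn.comp hu hw).of_eq ?_
  intro n
  exact Part.bind_some _ _

lemma TIn.pair {O : Set (ℕ →. ℕ)} {u w : ℕ → ℕ} (hu : TIn O u) (hw : TIn O w) :
    TIn O (fun n => Nat.pair (u n) (w n)) := by
  refine (Nat.RecursiveIn.pair hu hw).of_eq ?_
  intro n
  show (Nat.pair <$> Part.some (u n) <*> Part.some (w n)) = _
  simp [Seq.seq]

lemma TIn.prec {O : Set (ℕ →. ℕ)} {u w : ℕ → ℕ} (hu : TIn O u) (hw : TIn O w) :
    TIn O (fun p => Nat.rec (u p.unpair.1)
      (fun y IH => w (Nat.pair p.unpair.1 (Nat.pair y IH))) p.unpair.2) := by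
  refine (Nat.RecursiveIn.prec hu hw).of_eq ?_
  intro p
  show (Nat.rec (Part.some (u p.unpair.1)) (fun y IH => do
          let i ← IH
          Part.some (w (Nat.pair p.unpair.1 (Nat.pair y i)))) p.unpair.2 : Part ℕ) =
    Part.some (Nat.rec (u p.unpair.1)
      (fun y IH => w (Nat.pair p.unpair.1 (Nat.pair y IH))) p.unpair.2)
  generalize p.unpair.1 = a
  generalize p.unpair.2 = n
  induction n with
  | zero => rfl
  | succ n ih =>
    simp only
    rw [ih]
    exact Part.bind_some _ _

/-- the codes of the prefixes of `b` are computable from `b` -/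
lemma TIn_pre (b : Om) : TIn {chi b} (fun k => encode (pre b k)) := by
  -- step function: from `⟨a, ⟨y, i⟩⟩` with `i = encode (pre b y)` to `encode (pre b (y+1))`
  have ho : TIn {chi b} (fun n => (b n).toNat) := Nat.RecursiveIn.oracle _ rfl
  have hc : Computable (fun q : ℕ => encode (((decode (α := List Bool) q.unpair.1).getD []) ++
      [decide (q.unpair.2 = 1)])) := by
    apply Primrec.to_comp
    apply Primrec.encode.comp
    apply Primrec.list_append.comp
    · apply Primrec.option_getD.comp
      · exact Primrec.decode.comp (Primrec.fst.comp Primrec.unpair)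
      · exact Primrec.const _
    · apply Primrec.list_cons.comp
      · exact (PrimrecRel.comp Primrec.eq (Primrec.snd.comp Primrec.unpair)
          (Primrec.const 1)).decide
      · exact Primrec.const _
  have hy : Computable (fun q : ℕ => q.unpair.2.unpair.1) :=
    (Primrec.fst.comp (Primrec.unpair.comp (Primrec.snd.comp Primrec.unpair))).to_comp
  have hi : Computable (fun q : ℕ => q.unpair.2.unpair.2) :=
    (Primrec.snd.comp (Primrec.unpair.comp (Primrec.snd.comp Primrec.unpair))).to_comp
  have hstep : TIn {chi b} (fun q : ℕ => encode (((decode (α := List Bool)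
      q.unpair.2.unpair.2).getD []) ++ [decide ((b q.unpair.2.unpair.1).toNat = 1)])) := by
    have h1 := (TIn.of_computable (O := {chi b}) hi).pair
      (ho.comp (TIn.of_computable (O := {chi b}) hy))
    have h2 := (TIn.of_computable (O := {chi b}) hc).comp h1
    simpa using h2
  have hzero : TIn {chi b} (fun _ : ℕ => encode ([] : List Bool)) :=
    TIn.of_computable (Computable.const _)
  have h3 := hzero.prec hstep
  have hk : TIn {chi b} (fun k => Nat.pair 0 k) :=
    TIn.of_computable (Primrec₂.natPair.comp (Primrec.const 0) Primrec.id).to_comp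
  have h4 := h3.comp hk
  unfold TIn at h4 ⊢
  refine h4.of_eq ?_
  intro k
  congr 1
  simp only [Nat.unpair_pair]
  induction k with
  | zero => rfl
  | succ k ih =>
    simp only
    rw [ih, encodek, pre_succ]
    simp only [Option.getD_some]
    cases b k <;> rfl

/-- A computable search along the prefixes of `b` gives a Turing reduction. -/
theorem TR_of_search {a b : Om} (q : List Bool → ℕ → Option Bool) (hq : Computable₂ q)
    (hs : ∀ k n v, q (pre b k) n = some v → a n = v) (hc : ∀ n, ∃ k, (q (pre b k) n).isSome) :
    TR a b := by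
  have hQ : Computable (fun p : ℕ => encode (q ((decode (α := List Bool) p.unpair.2).getD [])
      p.unpair.1)) := by
    apply Computable.encode.comp
    apply hq.comp
    · apply Primrec.to_comp
      exact Primrec.option_getD.comp (Primrec.decode.comp (Primrec.snd.comp Primrec.unpair))
        (Primrec.const _)
    · exact (Primrec.fst.comp Primrec.unpair).to_comp
  have hA : TIn {chi b} (fun p : ℕ => encode (q (pre b p.unpair.2) p.unpair.1)) := by
    have h1 := (TIn.of_computable (O := {chi b}) (Primrec.fst.comp Primrec.unpair).to_comp).pair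
      ((TIn_pre b).comp (TIn.of_computable (O := {chi b})
        (Primrec.snd.comp Primrec.unpair).to_comp))
    have h2 := (TIn.of_computable (O := {chi b}) hQ).comp h1
    simpa using h2
  -- test function: `0` iff the search has succeeded
  have hT : TIn {chi b} (fun p : ℕ => if (q (pre b p.unpair.2) p.unpair.1).isSome then 0 else 1) := by
    have hc1 : Computable (fun m : ℕ => if m = 0 then 1 else 0) := by
      apply Primrec.to_comp
      exact Primrec.ite (PrimrecRel.comp Primrec.eq Primrec.id (Primrec.const 0))
        (Primrec.const 1) (Primrec.const 0)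
    have h1 := (TIn.of_computable (O := {chi b}) hc1).comp hA
    unfold TIn at h1 ⊢
    refine h1.of_eq ?_
    intro p
    show Part.some (if encode (q (pre b p.unpair.2) p.unpair.1) = 0 then 1 else 0) =
      Part.some (if (q (pre b p.unpair.2) p.unpair.1).isSome then 0 else 1)
    generalize q (pre b p.unpair.2) p.unpair.1 = o
    cases o <;> simp
  have hF : Nat.RecursiveIn {chi b} (fun n => Nat.rfind fun k => (fun m => decide (m = 0)) <$>
      (fun p : ℕ => Part.some (if (q (pre b p.unpair.2) p.unpair.1).isSome then 0 else 1) :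
        ℕ → Part ℕ) (Nat.pair n k)) := Nat.RecursiveIn.rfind hT
  -- the value
  have hP : Nat.RecursiveIn {chi b} (fun n => (Nat.pair <$> (Part.some n) <*>
      (Nat.rfind fun k => (fun m => decide (m = 0)) <$>
      (fun p : ℕ => Part.some (if (q (pre b p.unpair.2) p.unpair.1).isSome then 0 else 1) :
        ℕ → Part ℕ) (Nat.pair n k)))) :=
    Nat.RecursiveIn.pair (TIn.of_computable Computable.id) hF
  have hV : TIn {chi b} (fun p : ℕ => ((q (pre b p.unpair.2) p.unpair.1).getD false).toNat) := by
    have hc1 : Computable (fun m : ℕ => (((decode (α := Option Bool) m).getD none).getD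
        false).toNat) := by
      apply Primrec.to_comp
      apply (Primrec.dom_bool Bool.toNat).comp
      apply Primrec.option_getD.comp
      · exact Primrec.option_getD.comp Primrec.decode (Primrec.const none)
      · exact Primrec.const false
    have h1 := (TIn.of_computable (O := {chi b}) hc1).comp hA
    simpa using h1
  have hfin := Nat.RecursiveIn.comp hV hP
  show RecursiveIn {chi b} (chi a)
  rw [RecursiveIn.iff_nat]
  refine hfin.of_eq ?_
  intro n
  have hn := hc n
  classical
  set k := Nat.find hn with hk
  have hk1 : (q (pre b k) n).isSome := Nat.find_spec hn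
  have hr : k ∈ (Nat.rfind fun k => (fun m => decide (m = 0)) <$>
      (fun p : ℕ => Part.some (if (q (pre b p.unpair.2) p.unpair.1).isSome then 0 else 1) :
        ℕ → Part ℕ) (Nat.pair n k)) := by
    refine Nat.mem_rfind.2 ⟨?_, ?_⟩
    · simp [hk1]
    · intro m hm
      have := Nat.find_min hn hm
      simp [this]
  rw [Part.eq_some_iff.2 hr]
  have e1 : (Nat.pair <$> (Part.some n) <*> Part.some k) = Part.some (Nat.pair n k) := by
    simp [Seq.seq]
  rw [e1]
  show Part.bind (Part.some (Nat.pair n k)) _ = Part.some (a n).toNat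
  rw [Part.bind_some]
  simp only [Nat.unpair_pair]
  obtain ⟨v, hv⟩ := Option.isSome_iff_exists.1 hk1
  rw [hv, hs k n v hv]
  rfl

/-- the facts of `D` are all visible in the string `σ` -/
def chk (σ : List Bool) (D : Facts) : Bool := decide (∀ f ∈ D, σ[f.1]? = some f.2)

lemma primrec_chk : Primrec₂ chk := by
  unfold chk
  have h1 : PrimrecRel (fun (L : Facts) (σ : List Bool) => ∀ f ∈ L, σ[f.1]? = some f.2) := by
    apply PrimrecRel.forall_mem_list (R := fun (f : ℕ × Bool) (σ : List Bool) =>
      σ[f.1]? = some f.2)
    apply PrimrecRel.comp Primrec.eq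
    · exact Primrec.list_getElem?.comp Primrec.snd (Primrec.fst.comp Primrec.fst)
    · exact Primrec.option_some.comp (Primrec.snd.comp Primrec.fst)
  have h2 : PrimrecRel (fun (σ : List Bool) (L : Facts) => ∀ f ∈ L, σ[f.1]? = some f.2) := h1.swap
  exact h2.decide

lemma chk_pre {b : Om} {k : ℕ} {D : Facts} :
    chk (pre b k) D = true ↔ Tr b D ∧ ∀ f ∈ D, f.1 < k := by
  unfold chk
  rw [decide_eq_true_iff]
  constructor
  · intro h
    refine ⟨fun f hf => ?_, fun f hf => ?_⟩
    · have := h f hf
      rw [getElem?_pre] at this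
      split_ifs at this
      exact Option.some.inj this
    · have := h f hf
      rw [getElem?_pre] at this
      split_ifs at this with h1
      exact h1
  · rintro ⟨h1, h2⟩ f hf
    rw [getElem?_pre_of_lt b (h2 f hf), h1 f hf]

/-- the search associated with a functional -/
def srch (c : Code) (σ : List Bool) (n : ℕ) : Option Bool :=
  ((List.range σ.length).filterMap (fun m =>
    (decode (α := Facts × Bool) m).bind fun x =>
      if chk σ x.1 = true ∧ (c.evaln σ.length (encode (x.1, n, x.2))).isSome = true
      then some x.2 else none)).head?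

lemma primrec_srch (c : Code) : Primrec₂ (srch c) := by
  unfold srch
  apply Primrec₂.mk
  apply Primrec.list_head?.comp
  apply Primrec.listFilterMap (f := fun p : List Bool × ℕ => List.range p.1.length)
    (g := fun (p : List Bool × ℕ) (m : ℕ) => (decode (α := Facts × Bool) m).bind fun x =>
      if chk p.1 x.1 = true ∧ (c.evaln p.1.length (encode (x.1, p.2, x.2))).isSome = true
      then some x.2 else none)
  · exact Primrec.list_range.comp (Primrec.list_length.comp Primrec.fst)
  · apply Primrec.option_bind (f := fun r : (List Bool × ℕ) × ℕ => decode (α := Facts × Bool) r.2)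
      (g := fun (r : (List Bool × ℕ) × ℕ) (x : Facts × Bool) =>
        if chk r.1.1 x.1 = true ∧ (c.evaln r.1.1.length (encode (x.1, r.1.2, x.2))).isSome = true
        then some x.2 else none)
    · exact Primrec.decode.comp Primrec.snd
    · apply Primrec₂.mk
      apply Primrec.ite
      · apply PrimrecPred.and
        · apply PrimrecRel.comp Primrec.eq
          · exact primrec_chk.comp (Primrec.fst.comp (Primrec.fst.comp Primrec.fst))
              (Primrec.fst.comp Primrec.snd)
          · exact Primrec.const _
        · apply PrimrecRel.comp Primrec.eq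
          · apply Primrec.option_isSome.comp
            have := Nat.Partrec.Code.primrec_evaln
            apply Primrec.comp (f := fun a : (ℕ × Code) × ℕ => Code.evaln a.1.1 a.1.2 a.2)
              (g := fun r : ((List Bool × ℕ) × ℕ) × (Facts × Bool) =>
                ((r.1.1.1.length, c), encode (r.2.1, r.1.1.2, r.2.2)))
            · exact this
            · apply Primrec.pair
              · exact (Primrec.list_length.comp (Primrec.fst.comp (Primrec.fst.comp
                  Primrec.fst))).pair (Primrec.const c)
              · apply Primrec.encode.comp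
                exact (Primrec.fst.comp Primrec.snd).pair
                  ((Primrec.snd.comp (Primrec.fst.comp Primrec.fst)).pair
                    (Primrec.snd.comp Primrec.snd))
          · exact Primrec.const _
      · exact Primrec.option_some.comp (Primrec.snd.comp Primrec.snd)
      · exact Primrec.const _

lemma evaln_dom {c : Code} {n : ℕ} : (c.eval n).Dom ↔ ∃ k, (c.evaln k n).isSome = true := by
  rw [Part.dom_iff_mem]
  constructor
  · rintro ⟨y, hy⟩
    obtain ⟨k, hk⟩ := Nat.Partrec.Code.evaln_complete.1 hy
    exact ⟨k, by rw [Option.mem_def] at hk; rw [hk]; rfl⟩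
  · rintro ⟨k, hk⟩
    obtain ⟨y, hy⟩ := Option.isSome_iff_exists.1 hk
    exact ⟨y, Nat.Partrec.Code.evaln_sound hy⟩

/-- search for `(D, v, k)`, with `D` checked against the oracle. -/
theorem TR_of_Red {a b : Om} {c : Code} (h : Red c b a) : TR a b := by
  apply TR_of_search (srch c) (primrec_srch c).to_comp
  · intro k n v hv
    unfold srch at hv
    have h1 := List.mem_of_head? hv
    rw [List.mem_filterMap] at h1
    obtain ⟨m, _, hm⟩ := h1
    rw [Option.bind_eq_some_iff] at hm
    obtain ⟨x, _, hx⟩ := hm
    split_ifs at hx with h2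
    obtain rfl : x.2 = v := Option.some.inj hx
    refine (h n x.2).2 ⟨x.1, (chk_pre.1 h2.1).1, ?_⟩
    exact evaln_dom.2 ⟨_, h2.2⟩
  · intro n
    obtain ⟨D, hD, hh⟩ := (h n (a n)).1 rfl
    obtain ⟨k, hk⟩ := evaln_dom.1 hh
    obtain ⟨B, hB⟩ : ∃ B, ∀ f ∈ D, f.1 < B := by
      refine ⟨(D.map Prod.fst).sum + 1, fun f hf => ?_⟩
      have := List.single_le_sum (l := D.map Prod.fst) (by simp) f.1
        (List.mem_map.2 ⟨f, hf, rfl⟩)
      omega
    set K := max k (max B (encode (D, a n) + 1)) with hK
    have hKk : k ≤ K := le_max_left _ _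
    have hKB : B ≤ K := le_trans (le_max_left _ _) (le_max_right _ _)
    have hKe : encode (D, a n) + 1 ≤ K := le_trans (le_max_right _ _) (le_max_right _ _)
    refine ⟨K, ?_⟩
    unfold srch
    rw [List.isSome_head?]
    apply List.ne_nil_of_mem (a := a n)
    rw [List.mem_filterMap]
    refine ⟨encode (D, a n), ?_, ?_⟩
    · rw [List.mem_range, length_pre]
      exact hKe
    · rw [encodek]
      show (if chk (pre b K) D = true ∧
        (c.evaln (pre b K).length (encode (D, n, a n))).isSome = true then some (a n) else none) = _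
      rw [if_pos]
      refine ⟨chk_pre.2 ⟨hD, fun f hf => lt_of_lt_of_le (hB f hf) hKB⟩, ?_⟩
      rw [length_pre]
      obtain ⟨y, hy⟩ := Option.isSome_iff_exists.1 hk
      have := Nat.Partrec.Code.evaln_mono hKk hy
      rw [Option.mem_def] at this
      rw [this]; rfl

theorem TR_iff_Red {a b : Om} : TR a b ↔ ∃ c, Red c b a :=
  ⟨Red_of_TR, fun ⟨_, h⟩ => TR_of_Red h⟩

theorem TR.refl (a : Om) : TR a a := TuringReducible.refl _

theorem TR.trans {a b c : Om} (h : TR a b) (h' : TR b c) : TR a c :=
  TuringReducible.trans h h'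

end Crest.Agent.R292
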