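import Crest.Agent.R292.Defs

/-!
# R292: closure properties of r.e. predicates

Key idea: `REPred p` iff `p a ↔ ∃ k, q (a, k)` for a primitive recursive `q : α × ℕ → Bool`
which is monotone in `k` (use `Code.evaln`, `Code.primrec_evaln`, `Code.evaln_complete`,
`Code.evaln_mono`).  All closure properties follow from it.
-/

set_option autoImplicit false

namespace Crest.Agent.R292

open Encodable
open Nat.Partrec (Code)

variable {α β : Type*} [Primcodable α] [Primcodable β]

/-- every r.e. predicate has a code -/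
theorem re_code {p : α → Prop} (hp : REPred p) :
    ∃ c : Code, ∀ a, (c.eval (encode a)).Dom ↔ p a := by
  obtain ⟨c, hc⟩ := Nat.Partrec.Code.exists_code.1 hp
  refine ⟨c, fun a => ?_⟩
  rw [hc]
  simp [Part.assert]

/-- stage characterisation of r.e. predicates -/
theorem re_stage {p : α → Prop} (hp : REPred p) :
    ∃ q : α × ℕ → Bool, Primrec q ∧ (∀ a k l, k ≤ l → q (a, k) = true → q (a, l) = true) ∧
      ∀ a, p a ↔ ∃ k, q (a, k) = true := by
  obtain ⟨c, hc⟩ := re_code hp
  refine ⟨fun x => (Nat.Partrec.Code.evaln x.2 c (encode x.1)).isSome, ?_, ?_, ?_⟩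
  · exact Primrec.option_isSome.comp (Nat.Partrec.Code.primrec_evaln.comp
      ((Primrec.snd.pair (Primrec.const c)).pair (Primrec.encode.comp Primrec.fst)))
  · intro a k l hkl h
    obtain ⟨x, hx⟩ := Option.isSome_iff_exists.1 h
    exact Option.isSome_iff_exists.2 ⟨x, Nat.Partrec.Code.evaln_mono hkl hx⟩
  · intro a
    rw [← hc a, Part.dom_iff_mem]
    constructor
    · rintro ⟨y, hy⟩
      obtain ⟨k, hk⟩ := Nat.Partrec.Code.evaln_complete.1 hy
      exact ⟨k, Option.isSome_iff_exists.2 ⟨y, hk⟩⟩
    · rintro ⟨k, hk⟩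
      obtain ⟨y, hy⟩ := Option.isSome_iff_exists.1 hk
      exact ⟨y, Nat.Partrec.Code.evaln_complete.2 ⟨k, hy⟩⟩

theorem re_of_stage {p : α → Prop} {q : α × ℕ → Bool} (hq : Computable q)
    (h : ∀ a, p a ↔ ∃ k, q (a, k) = true) : REPred p := by
  have h1 : Partrec (fun a : α => Nat.rfind fun k => Part.some (q (a, k))) := by
    apply Partrec.rfind
    exact hq
  refine h1.dom_re.of_eq fun a => ?_
  rw [h a, Nat.rfind_dom]
  simp

theorem re_comp {p : β → Prop} (hp : REPred p) {f : α → β} (hf : Computable f) :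
    REPred (fun a => p (f a)) := by
  unfold REPred at hp ⊢
  exact hp.comp hf

theorem re_and {p q : α → Prop} (hp : REPred p) (hq : REPred q) :
    REPred (fun a => p a ∧ q a) := by
  obtain ⟨P, hP, hPm, hPe⟩ := re_stage hp
  obtain ⟨Q, hQ, hQm, hQe⟩ := re_stage hq
  refine re_of_stage (q := fun x => P x && Q x) (Primrec.and.comp hP hQ).to_comp fun a => ?_
  simp only [Bool.and_eq_true]
  constructor
  · rintro ⟨h1, h2⟩
    obtain ⟨k, hk⟩ := (hPe a).1 h1
    obtain ⟨l, hl⟩ := (hQe a).1 h2
    exact ⟨max k l, hPm _ _ _ (le_max_left _ _) hk, hQm _ _ _ (le_max_right _ _) hl⟩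
  · rintro ⟨k, h1, h2⟩
    exact ⟨(hPe a).2 ⟨k, h1⟩, (hQe a).2 ⟨k, h2⟩⟩

theorem re_or {p q : α → Prop} (hp : REPred p) (hq : REPred q) :
    REPred (fun a => p a ∨ q a) := by
  obtain ⟨P, hP, hPm, hPe⟩ := re_stage hp
  obtain ⟨Q, hQ, hQm, hQe⟩ := re_stage hq
  refine re_of_stage (q := fun x => P x || Q x) (Primrec.or.comp hP hQ).to_comp fun a => ?_
  simp only [Bool.or_eq_true, exists_or, ← hPe, ← hQe]

theorem re_ex {p : α × β → Prop} (hp : REPred p) : REPred (fun a => ∃ b, p (a, b)) := by
  obtain ⟨P, hP, hPm, hPe⟩ := re_stage hp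
  refine re_of_stage (q := fun x : α × ℕ =>
    Option.casesOn (decode (α := β) (Nat.unpair x.2).1) false
      (fun b => P ((x.1, b), (Nat.unpair x.2).2))) ?_ fun a => ?_
  · apply Primrec.to_comp
    refine Primrec.option_casesOn
      (Primrec.decode.comp (Primrec.fst.comp (Primrec.unpair.comp Primrec.snd)))
      (Primrec.const false) ?_
    unfold Primrec₂
    exact hP.comp (((Primrec.fst.comp Primrec.fst).pair Primrec.snd).pair
      (Primrec.snd.comp (Primrec.unpair.comp (Primrec.snd.comp Primrec.fst))))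
  · constructor
    · rintro ⟨b, hb⟩
      obtain ⟨k, hk⟩ := (hPe (a, b)).1 hb
      refine ⟨Nat.pair (encode b) k, ?_⟩
      simpa using hk
    · rintro ⟨k, hk⟩
      cases hd : decode (α := β) (Nat.unpair k).1 with
      | none => simp [hd] at hk
      | some b =>
        simp only [hd] at hk
        exact ⟨b, (hPe (a, b)).2 ⟨_, hk⟩⟩

theorem re_all_mem {p : α × β → Prop} (hp : REPred p) {L : α → List β} (hL : Computable L) :
    REPred (fun a => ∀ b ∈ L a, p (a, b)) := by
  obtain ⟨P, hP, hPm, hPe⟩ := re_stage hp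
  -- a primitive recursive relation
  have h1 : PrimrecRel fun (b : β) (y : α × ℕ) => P ((y.1, b), y.2) = true := by
    refine PrimrecPred.comp (p := fun z : (α × β) × ℕ => P z = true)
      (f := fun w : β × (α × ℕ) => ((w.2.1, w.1), w.2.2)) ?_ ?_
    · exact ⟨inferInstance, by simpa using hP⟩
    · exact ((Primrec.fst.comp Primrec.snd).pair Primrec.fst).pair (Primrec.snd.comp Primrec.snd)
  have h2 := h1.forall_mem_list
  obtain ⟨inst, h3⟩ := h2
  have h4 : Computable (fun x : α × ℕ => decide (∀ b ∈ L x.1, P ((x.1, b), x.2) = true)) := by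
    have := h3.to_comp.comp ((hL.comp Computable.fst).pair Computable.id : Computable
      (fun x : α × ℕ => (L x.1, x)))
    refine this.of_eq fun x => ?_
    simp
  refine re_of_stage h4 fun a => ?_
  simp only [decide_eq_true_eq]
  constructor
  · intro h
    have : ∀ l : List β, (∀ b ∈ l, p (a, b)) → ∃ k, ∀ b ∈ l, P ((a, b), k) = true := by
      intro l
      induction l with
      | nil => intro _; exact ⟨0, by simp⟩
      | cons b l ih =>
        intro hl
        obtain ⟨k, hk⟩ := ih fun b' hb' => hl b' (List.mem_cons_of_mem _ hb')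
        obtain ⟨k', hk'⟩ := (hPe (a, b)).1 (hl b List.mem_cons_self)
        refine ⟨max k k', fun b' hb' => ?_⟩
        rcases List.mem_cons.1 hb' with rfl | hb'
        · exact hPm _ _ _ (le_max_right _ _) hk'
        · exact hPm _ _ _ (le_max_left _ _) (hk b' hb')
    exact this _ h
  · rintro ⟨k, hk⟩ b hb
    exact (hPe (a, b)).2 ⟨k, hk b hb⟩

theorem re_const (P : Prop) : REPred (fun _ : α => P) := by
  classical
  refine re_of_stage (q := fun _ => decide P) (Computable.const _) fun a => ?_
  simp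

/-- the universal r.e. predicate -/
theorem re_eval : REPred (fun x : Code × ℕ => (x.1.eval x.2).Dom) :=
  Partrec.dom_re (f := fun x : Code × ℕ => x.1.eval x.2) Nat.Partrec.Code.eval_part

theorem re_hit : REPred (fun x : Code × Facts × ℕ × Bool => Hit x.1 x.2.1 x.2.2.1 x.2.2.2) := by
  refine re_comp (p := fun x : Code × ℕ => (x.1.eval x.2).Dom)
    (f := fun x : Code × Facts × ℕ × Bool => (x.1, encode x.2)) re_eval ?_
  exact Computable.fst.pair (Computable.encode.comp Computable.snd)

/-- recursion theorem for r.e. predicates (use `Nat.Partrec.Code.fixed_point₂`). -/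
theorem re_rec {p : Code × α → Prop} (hp : REPred p) :
    ∃ c : Code, ∀ a, (c.eval (encode a)).Dom ↔ p (c, a) := by
  have h1 : REPred (fun x : Code × ℕ => ∃ a : α, encode a = x.2 ∧ p (x.1, a)) := by
    refine re_ex (p := fun y : (Code × ℕ) × α => encode y.2 = y.1.2 ∧ p (y.1.1, y.2)) ?_
    refine re_and ?_ ?_
    · have : PrimrecPred (fun y : (Code × ℕ) × α => encode y.2 = y.1.2) :=
        Primrec.eq.comp (Primrec.encode.comp Primrec.snd) (Primrec.snd.comp Primrec.fst)
      exact this.computablePred.to_re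
    · exact re_comp (p := p) (f := fun y : (Code × ℕ) × α => (y.1.1, y.2)) hp
        ((Computable.fst.comp Computable.fst).pair Computable.snd)
  have h2 : Partrec₂ (fun (c : Code) (n : ℕ) =>
      (Part.assert (∃ a : α, encode a = n ∧ p (c, a)) fun _ => Part.some ()).map
        (fun _ => 0)) := by
    have : Partrec (fun x : Code × ℕ =>
      (Part.assert (∃ a : α, encode a = x.2 ∧ p (x.1, a)) fun _ => Part.some ()).map
        (fun _ => (0 : ℕ))) := Partrec.map h1 (Computable.const 0).to₂
    exact this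
  obtain ⟨c, hc⟩ := Nat.Partrec.Code.fixed_point₂ h2
  refine ⟨c, fun a => ?_⟩
  rw [hc]
  simp [Part.assert]

/-- a functional from an r.e. predicate -/
theorem hit_code {p : Facts → ℕ → Bool → Prop}
    (hp : REPred (fun x : Facts × ℕ × Bool => p x.1 x.2.1 x.2.2)) :
    ∃ c : Code, ∀ D n v, Hit c D n v ↔ p D n v := by
  obtain ⟨c, hc⟩ := re_code hp
  exact ⟨c, fun D n v => hc (D, n, v)⟩

end Crest.Agent.R292
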